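import Vale.Agent.P022.H191.Cone
import Vale.Agent.P022.H436.Imag

/-!
# P022: cone decompositions for `ℚ` and for imaginary quadratic fields
-/

open NumberField Module Ideal
open Vale.Agent.P022.H191 (ConeSys UP InCone)

namespace Vale.Agent.P022.H23

variable {K : Type} [Field K] [NumberField K]

section rational

variable (h1 : finrank ℚ K = 1)

include h1

lemma surj_of_one : Function.Surjective (algebraMap ℚ K) := by
  have h2 := finrank_eq_one_iff_of_nonzero' (K := ℚ) (V := K) (1 : K) one_ne_zero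
  intro x
  obtain ⟨c, hc⟩ := h2.1 h1 x
  exact ⟨c, by rw [Algebra.algebraMap_eq_smul_one, hc]⟩

lemma exists_real : Nonempty (K →+* ℝ) := by
  have hb : Function.Bijective (algebraMap ℚ K) :=
    ⟨(algebraMap ℚ K).injective, surj_of_one h1⟩
  exact ⟨(algebraMap ℚ ℝ).comp (RingEquiv.ofBijective _ hb).symm.toRingHom⟩

lemma unit_pm (u : (𝓞 K)ˣ) : u = 1 ∨ u = -1 := by
  obtain ⟨q, hq⟩ := surj_of_one h1 ((u : 𝓞 K) : K)
  have h2 : Algebra.norm ℤ (u : 𝓞 K) = 1 ∨ Algebra.norm ℤ (u : 𝓞 K) = -1 :=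
    Int.isUnit_iff.1 (u.isUnit.map _)
  have h3 : (Algebra.norm ℤ (u : 𝓞 K) : ℚ) = q := by
    rw [Algebra.coe_norm_int, ← hq, Algebra.norm_algebraMap, h1, pow_one]
  rcases h2 with h2 | h2
  · left
    apply Units.ext
    apply RingOfIntegers.ext
    rw [← hq, ← h3, h2]
    simp
  · right
    apply Units.ext
    apply RingOfIntegers.ext
    rw [← hq, ← h3, h2]
    simp

/-- case `K = ℚ` -/
theorem cone_one (M : ℕ) : Nonempty (ConeSys K M) := by
  have hli : LinearIndependent ℚ (fun _ : Fin 1 => (1 : K)) := by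
    rw [linearIndependent_unique_iff]
    exact one_ne_zero
  set b : Basis (Fin 1) ℚ K := basisOfLinearIndependentOfCardEqFinrank hli (by rw [h1]; rfl)
    with hb
  have hbj : ∀ j, b j = 1 := by
    intro j
    rw [hb, coe_basisOfLinearIndependentOfCardEqFinrank]
  have hrep : ∀ x : K, x = algebraMap ℚ K (b.repr x 0) := by
    intro x
    have := b.sum_repr x
    rw [Fin.sum_univ_one, hbj] at this
    rw [Algebra.algebraMap_eq_smul_one, this]
  have hnorm : ∀ x : K, Algebra.norm ℚ x = b.repr x 0 := by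
    intro x
    conv_lhs => rw [hrep x]
    rw [Algebra.norm_algebraMap, h1, pow_one]
  obtain ⟨σ⟩ := exists_real h1
  refine ⟨{ n := 0, κ := Unit, fin := inferInstance, v := fun _ _ => 1, b := fun _ => b, hb := ?_,
            pos := ?_, mono := ?_, w := 1, w_pos := one_pos, count := ?_ }⟩
  · intro _ j
    rw [hbj]
    simp
  · intro _ τ
    simp
  · intro _ x y hx hxy
    rw [hnorm, hnorm, abs_of_nonneg (hx 0), abs_of_nonneg ((hx 0).trans (hxy 0))]
    exact hxy 0
  · intro α hα hpos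
    have huniq : ∀ p : Unit × (𝓞 K)ˣ, UP M (p.2 : 𝓞 K) → p = ((), 1) := by
      rintro ⟨_, u⟩ hu
      rcases unit_pm h1 u with h | h
      · rw [h]
      · exfalso
        have h2 := hu.2 σ
        simp only [h] at h2
        simp at h2
        linarith
    have hval : 0 < b.repr (α : K) 0 := by
      have h2 := hpos σ
      rw [hrep (α : K)] at h2
      have h3 : σ (algebraMap ℚ K (b.repr (α : K) 0)) = ((b.repr (α : K) 0 : ℚ) : ℝ) := by
        simp
      rw [h3] at h2
      exact_mod_cast h2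
    rw [Nat.cast_one, ENat.card_eq_one_iff_unique]
    have hmem : UP M (((1 : (𝓞 K)ˣ) : 𝓞 K)) ∧
        InCone b ((((1 : (𝓞 K)ˣ) : 𝓞 K) * α : 𝓞 K) : K) := by
      refine ⟨⟨by simp, fun τ => by simp⟩, ?_, ?_⟩
      · simpa using hval
      · intro j
        fin_cases j
        simpa using hval.le
    refine ⟨{ default := ⟨((), 1), hmem⟩, uniq := fun p => Subtype.ext ?_ }⟩
    exact huniq p.1 p.2.1

end rational

section imaginary

/-- rotation of the coordinate plane -/
def J2 : (Fin 2 → ℚ) ≃ₗ[ℚ] (Fin 2 → ℚ) where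
  toFun x := ![x 1, -x 0]
  invFun x := ![-x 1, x 0]
  map_add' x y := by
    funext i
    fin_cases i
    · simp
    · simp
      ring
  map_smul' c x := by
    funext i
    fin_cases i <;> simp
  left_inv x := by
    funext i
    fin_cases i <;> simp
  right_inv x := by
    funext i
    fin_cases i <;> simp

/-- the four rotations -/
def rot (k : Fin 4) : (Fin 2 → ℚ) ≃ₗ[ℚ] (Fin 2 → ℚ) :=
  match k with
  | 0 => LinearEquiv.refl ℚ _
  | 1 => J2
  | 2 => J2.trans J2
  | 3 => J2.trans (J2.trans J2)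

/-- the quadrant predicate -/
def PQ (k : Fin 4) (x : Fin 2 → ℚ) : Prop := 0 < rot k x 0 ∧ ∀ j, 0 ≤ rot k x j

lemma PQ0 (x : Fin 2 → ℚ) : PQ 0 x ↔ 0 < x 0 ∧ 0 ≤ x 1 := by
  unfold PQ rot
  simp only [LinearEquiv.refl_apply, Fin.forall_fin_two]
  constructor
  · rintro ⟨h1, h2, h3⟩
    exact ⟨h1, h3⟩
  · rintro ⟨h1, h2⟩
    exact ⟨h1, h1.le, h2⟩

lemma PQ1 (x : Fin 2 → ℚ) : PQ 1 x ↔ 0 < x 1 ∧ x 0 ≤ 0 := by
  unfold PQ rot J2
  simp [Fin.forall_fin_two]
  intro h _
  exact h.le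

lemma PQ2 (x : Fin 2 → ℚ) : PQ 2 x ↔ x 0 < 0 ∧ x 1 ≤ 0 := by
  unfold PQ rot J2
  simp [Fin.forall_fin_two]
  intro h _
  exact h.le

lemma PQ3 (x : Fin 2 → ℚ) : PQ 3 x ↔ x 1 < 0 ∧ 0 ≤ x 0 := by
  unfold PQ rot J2
  simp [Fin.forall_fin_two]
  intro h _
  exact h.le

lemma PQ_exists {x : Fin 2 → ℚ} (hx : x ≠ 0) : ∃ k, PQ k x := by
  rcases lt_trichotomy (x 0) 0 with h0 | h0 | h0
  · rcases le_or_gt (x 1) 0 with h1 | h1
    · exact ⟨2, (PQ2 x).2 ⟨h0, h1⟩⟩
    · exact ⟨1, (PQ1 x).2 ⟨h1, h0.le⟩⟩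
  · rcases lt_trichotomy (x 1) 0 with h1 | h1 | h1
    · exact ⟨3, (PQ3 x).2 ⟨h1, h0.ge⟩⟩
    · exact absurd (funext fun i => by fin_cases i <;> simp [h0, h1]) hx
    · exact ⟨1, (PQ1 x).2 ⟨h1, h0.le⟩⟩
  · rcases lt_or_ge (x 1) 0 with h1 | h1
    · exact ⟨3, (PQ3 x).2 ⟨h1, h0.le⟩⟩
    · exact ⟨0, (PQ0 x).2 ⟨h0, h1⟩⟩

lemma PQ_unique {x : Fin 2 → ℚ} {k l : Fin 4} (hk : PQ k x) (hl : PQ l x) : k = l := by
  fin_cases k <;> fin_cases l <;> first
    | rfl
    | (exfalso
       simp only [Fin.zero_eta, Fin.mk_one, Fin.reduceFinMk, PQ0, PQ1, PQ2, PQ3] at hk hl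
       linarith [hk.1, hk.2, hl.1, hl.2])

/-- case `K` imaginary quadratic -/
theorem cone_imag (h2 : finrank ℚ K = 2) (hK : IsEmpty (K →+* ℝ)) (M : ℕ) :
    Nonempty (ConeSys K M) := by
  obtain ⟨q⟩ := H436.exists_QD h2
  have hD := H436.discr_neg h2 hK
  rw [q.discr_eq] at hD
  set d : 𝓞 K := 2 * q.w - q.t with hd
  have hdd : d * d = ((q.t ^ 2 - 4 * q.n : ℤ) : 𝓞 K) := by
    rw [hd]
    push_cast
    linear_combination 4 * q.hw
  have hddK : (d : K) * (d : K) = algebraMap ℚ K ((q.t : ℚ) ^ 2 - 4 * q.n) := by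
    have h := congrArg (algebraMap (𝓞 K) K) hdd
    rw [map_mul, map_intCast] at h
    refine h.trans ?_
    push_cast
    simp
  have hDq : (q.t : ℚ) ^ 2 - 4 * q.n < 0 := by exact_mod_cast hD
  have hli : LinearIndependent ℚ ![(1 : K), (d : K)] := by
    rw [LinearIndependent.pair_iff]
    intro s t hst
    have ht : t = 0 := by
      by_contra ht
      have h3 : (d : K) = algebraMap ℚ K (-(s / t)) := by
        have htK : algebraMap ℚ K t ≠ 0 := by
          rw [Ne, map_eq_zero]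
          exact ht
        rw [Algebra.smul_def, Algebra.smul_def, mul_one] at hst
        rw [map_neg, map_div₀]
        field_simp
        linear_combination hst
      rw [h3, ← map_mul] at hddK
      have h4 := (algebraMap ℚ K).injective hddK
      nlinarith [mul_self_nonneg (-(s / t))]
    rw [ht, zero_smul, add_zero] at hst
    exact ⟨by simpa using hst, ht⟩
  set e : Basis (Fin 2) ℚ K := basisOfLinearIndependentOfCardEqFinrank hli
    (by rw [h2]; rfl) with he
  have he0 : e 0 = 1 := by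
    rw [he, coe_basisOfLinearIndependentOfCardEqFinrank]; rfl
  have he1 : e 1 = (d : K) := by
    rw [he, coe_basisOfLinearIndependentOfCardEqFinrank]; rfl
  have hrepr : ∀ a b : ℚ, ∀ i, e.repr (algebraMap ℚ K a + algebraMap ℚ K b * d) i = ![a, b] i := by
    intro a b i
    have h5 : algebraMap ℚ K a + algebraMap ℚ K b * d = a • e 0 + b • e 1 := by
      rw [he0, he1, Algebra.smul_def, Algebra.smul_def, mul_one]
    rw [h5, map_add, map_smul, map_smul, e.repr_self, e.repr_self]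
    fin_cases i <;> simp
  have hz : ∀ z : K, z = algebraMap ℚ K (e.repr z 0) + algebraMap ℚ K (e.repr z 1) * d := by
    intro z
    conv_lhs => rw [← e.sum_repr z]
    rw [Fin.sum_univ_two, he0, he1, Algebra.smul_def, Algebra.smul_def, mul_one]
  have hnorm : ∀ z : K, Algebra.norm ℚ z =
      (e.repr z 0) ^ 2 - ((q.t : ℚ) ^ 2 - 4 * q.n) * (e.repr z 1) ^ 2 := by
    intro z
    rw [Algebra.norm_eq_matrix_det e, Matrix.det_fin_two]
    simp only [Algebra.leftMulMatrix_eq_repr_mul]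
    have h6 : z * e 0 = z := by rw [he0, mul_one]
    have h7 : z * e 1 = algebraMap ℚ K (((q.t : ℚ) ^ 2 - 4 * q.n) * e.repr z 1) +
        algebraMap ℚ K (e.repr z 0) * d := by
      rw [he1]
      conv_lhs => rw [hz z]
      rw [map_mul, ← hddK]
      ring
    rw [h6, h7, hrepr, hrepr]
    simp
    ring
  have hfin : Finite (𝓞 K)ˣ := H436.units_finite h2 hK
  set b : Fin 4 → Basis (Fin 2) ℚ K := fun k => Basis.ofEquivFun (e.equivFun.trans (rot k)) with hb
  have hbr : ∀ k z j, (b k).repr z j = rot k (fun i => e.repr z i) j := by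
    intro k z j
    rw [hb]
    simp only [Basis.ofEquivFun_repr_apply, LinearEquiv.trans_apply]
    rfl
  have hPQ : ∀ k z, InCone (b k) z ↔ PQ k (fun i => e.repr z i) := by
    intro k z
    unfold InCone PQ
    simp only [hbr]
  have hnormk : ∀ k, (∀ z, Algebra.norm ℚ z = ((b k).repr z 0) ^ 2 -
      ((q.t : ℚ) ^ 2 - 4 * q.n) * ((b k).repr z 1) ^ 2) ∨
      (∀ z, Algebra.norm ℚ z = ((b k).repr z 1) ^ 2 -
      ((q.t : ℚ) ^ 2 - 4 * q.n) * ((b k).repr z 0) ^ 2) := by
    intro k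
    fin_cases k
    · left
      intro z
      rw [hbr, hbr, hnorm]
      simp [rot]
    · right
      intro z
      rw [hbr, hbr, hnorm]
      simp [rot, J2]
    · left
      intro z
      rw [hbr, hbr, hnorm]
      simp [rot, J2]
    · right
      intro z
      rw [hbr, hbr, hnorm]
      simp [rot, J2]
  refine ⟨{ n := 1, κ := Fin 4, fin := inferInstance,
            v := ![![1, d], ![d, -1], ![-1, -d], ![-d, 1]], b := b, hb := ?_,
            pos := fun _ σ => (hK.false σ).elim, mono := ?_,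
            w := Nat.card {u : (𝓞 K)ˣ // UP M (u : 𝓞 K)}, w_pos := ?_, count := ?_ }⟩
  · intro k j
    have hbj : b k j = ∑ i, ((rot k).symm (Pi.single j 1)) i • e i := by
      rw [hb]
      simp only [Basis.coe_ofEquivFun, LinearEquiv.trans_symm, LinearEquiv.trans_apply,
        Basis.equivFun_symm_apply]
    rw [hbj, Fin.sum_univ_two, he0, he1]
    fin_cases k <;> fin_cases j <;> simp [rot, J2]
  · intro k x y hx hxy
    have hx0 := hx 0
    have hx1 := hx 1
    have h0 := pow_le_pow_left₀ hx0 (hxy 0) 2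
    have h1 := pow_le_pow_left₀ hx1 (hxy 1) 2
    have hx0' := sq_nonneg ((b k).repr x 0)
    have hx1' := sq_nonneg ((b k).repr x 1)
    rcases hnormk k with h | h
    · rw [h x, h y, abs_of_nonneg (by nlinarith), abs_of_nonneg (by nlinarith)]
      nlinarith
    · rw [h x, h y, abs_of_nonneg (by nlinarith), abs_of_nonneg (by nlinarith)]
      nlinarith
  · have : Nonempty {u : (𝓞 K)ˣ // UP M (u : 𝓞 K)} :=
      ⟨⟨1, by simp, fun σ => (hK.false σ).elim⟩⟩
    exact Nat.card_pos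
  · intro α hα _
    have hne : ∀ u : (𝓞 K)ˣ, (fun i => e.repr ((((u : 𝓞 K) * α : 𝓞 K)) : K) i) ≠ 0 := by
      intro u h0
      have h3 : ((((u : 𝓞 K) * α : 𝓞 K)) : K) = 0 := by
        rw [hz ((((u : 𝓞 K) * α : 𝓞 K)) : K), congrFun h0 0, congrFun h0 1]
        simp
      have h4 : (u : 𝓞 K) * α = 0 := by
        apply RingOfIntegers.ext
        simpa using h3
      exact mul_ne_zero u.ne_zero hα h4
    have heq : {p : Fin 4 × (𝓞 K)ˣ // UP M (p.2 : 𝓞 K) ∧
        InCone (b p.1) (((p.2 : 𝓞 K) * α : 𝓞 K) : K)} ≃ {u : (𝓞 K)ˣ // UP M (u : 𝓞 K)} := by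
      refine Equiv.ofBijective (fun p => ⟨p.1.2, p.2.1⟩) ⟨?_, ?_⟩
      · rintro ⟨⟨k, u⟩, hu, hk⟩ ⟨⟨l, v⟩, hv, hl⟩ h
        have huv : u = v := congrArg Subtype.val h
        subst huv
        have hkl : k = l := PQ_unique ((hPQ _ _).1 hk) ((hPQ _ _).1 hl)
        subst hkl
        rfl
      · rintro ⟨u, hu⟩
        obtain ⟨k, hk⟩ := PQ_exists (hne u)
        exact ⟨⟨(k, u), hu, (hPQ _ _).2 hk⟩, rfl⟩
    rw [ENat.card_congr heq, ENat.card_eq_coe_natCard]

end imaginary

end Vale.Agent.P022.H23
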