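import Vale.Agent.P022.Iface

/-!
# P022, package W: modular forms from expansions at all cusps
-/

open Complex UpperHalfPlane ModularGroup CongruenceSubgroup Matrix.SpecialLinearGroup
open scoped Real MatrixGroups ModularForm Manifold

namespace Vale.Agent.P022.H23

noncomputable section

/-- an expansion in `exp(2πi τ/h)` valid on the whole upper half plane -/
def HasE (h : ℕ) (c : ℕ → ℂ) (f : ℍ → ℂ) : Prop :=
  ∀ τ : ℍ, HasSum (fun n : ℕ => c n * cexp (2 * Real.pi * Complex.I * n * τ / h)) (f τ)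

lemma norm_term (h : ℕ) (n : ℕ) (z : ℂ) (c : ℂ) :
    ‖c * cexp (2 * Real.pi * Complex.I * n * z / h)‖ =
      ‖c‖ * Real.exp (-(2 * Real.pi * n * z.im / h)) := by
  rw [norm_mul, Complex.norm_exp]
  congr 2
  rw [show (2 * Real.pi * Complex.I * n * z / h : ℂ) =
    ((2 * Real.pi * n / h : ℝ) : ℂ) * (Complex.I * z) by push_cast; ring, Complex.re_ofReal_mul]
  simp
  ring

lemma HasE.summable {h : ℕ} {c : ℕ → ℂ} {f : ℍ → ℂ} (H : HasE h c f) {y : ℝ} (hy : 0 < y) :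
    Summable fun n : ℕ => ‖c n‖ * Real.exp (-(2 * Real.pi * n * y / h)) := by
  have h1 := (H ⟨y * Complex.I, by simpa using hy⟩).summable.norm
  refine h1.congr fun n => ?_
  rw [norm_term]
  simp

lemma norm_term_le {h : ℕ} (n : ℕ) {z : ℂ} {y : ℝ} (hz : y ≤ z.im) (c : ℂ) :
    ‖c * cexp (2 * Real.pi * Complex.I * n * z / h)‖ ≤
      ‖c‖ * Real.exp (-(2 * Real.pi * n * y / h)) := by
  rw [norm_term]
  refine mul_le_mul_of_nonneg_left (Real.exp_le_exp.2 (neg_le_neg ?_)) (norm_nonneg _)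
  have hpi := Real.pi_pos
  gcongr

theorem HasE.bdd {h : ℕ} {c : ℕ → ℂ} {f : ℍ → ℂ} (H : HasE h c f) : IsBoundedAtImInfty f := by
  rw [isBoundedAtImInfty_iff]
  refine ⟨∑' n : ℕ, ‖c n‖ * Real.exp (-(2 * Real.pi * n * 1 / h)), 1, fun τ hτ => ?_⟩
  rw [← (H τ).tsum_eq]
  exact tsum_of_norm_bounded (H.summable one_pos).hasSum fun n => norm_term_le n hτ (c n)

theorem HasE.mdiff {h : ℕ} {c : ℕ → ℂ} {f : ℍ → ℂ} (H : HasE h c f) : MDiff f := by
  rw [mdifferentiable_iff]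
  intro z hz
  have hz' : 0 < z.im := hz
  have hU : IsOpen {w : ℂ | z.im / 2 < w.im} := isOpen_lt continuous_const Complex.continuous_im
  have h1 : DifferentiableOn ℂ
      (fun w : ℂ => ∑' n : ℕ, c n * cexp (2 * Real.pi * Complex.I * n * w / h))
      {w : ℂ | z.im / 2 < w.im} := by
    refine differentiableOn_tsum_of_summable_norm (H.summable (half_pos hz')) (fun n => ?_) hU
      (fun n w hw => norm_term_le n (le_of_lt hw) (c n))
    fun_prop
  have hmem : {w : ℂ | z.im / 2 < w.im} ∈ nhds z := hU.mem_nhds (half_lt_self hz')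
  have h2 := h1.differentiableAt hmem
  have h3 : (f ∘ ofComplex) =ᶠ[nhds z]
      (fun w : ℂ => ∑' n : ℕ, c n * cexp (2 * Real.pi * Complex.I * n * w / h)) := by
    filter_upwards [hmem] with w hw
    have hw' : 0 < w.im := (half_pos hz').trans hw
    rw [Function.comp_apply, ofComplex_apply_of_im_pos hw', (H ⟨w, hw'⟩).tsum_eq]
  exact (h2.congr_of_eventuallyEq h3).differentiableWithinAt

/-- packaging: invariance and expansions of all `f ∣ γ` -/
theorem exists_MF {N : ℕ} {k : ℤ} {f : ℍ → ℂ}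
    (inv : ∀ γ ∈ Gamma1 N, f ∣[k] γ = f)
    (hE : ∀ γ : SL(2, ℤ), ∃ (h : ℕ) (c : ℕ → ℂ), HasE h c (f ∣[k] γ)) :
    ∃ g : MF N k, (g : ℍ → ℂ) = f := by
  have h1 : ∀ γ ∈ (Gamma1 N).map (mapGL ℝ), f ∣[k] γ = f := by
    rintro _ ⟨γ, hγ, rfl⟩
    exact inv γ hγ
  refine ⟨{ toFun := f, slash_action_eq' := h1, holo' := ?_, bdd_at_cusps' := ?_ }, rfl⟩
  · obtain ⟨h, c, hc⟩ := hE 1
    rw [SlashAction.slash_one] at hc
    exact hc.mdiff
  · intro c hc
    have hc2 : IsCusp c (mapGL ℝ : SL(2, ℤ) →* GL (Fin 2) ℝ).range := by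
      refine hc.mono ?_
      rintro _ ⟨γ, -, rfl⟩
      exact ⟨γ, rfl⟩
    rw [OnePoint.isBoundedAt_iff_forall_SL2Z hc2]
    intro γ _
    obtain ⟨h, c', hc'⟩ := hE γ
    exact hc'.bdd

end

end Vale.Agent.P022.H23
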