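import Vale.Agent.P022.Sys
import Vale.Agent.P022.H23.Pack
import Mathlib.NumberTheory.ModularForms.QExpansion

/-!
# P022: `q`-expansions of modular forms and the action of the Hecke operator
-/

open UpperHalfPlane Matrix CongruenceSubgroup Function
open scoped ModularForm MatrixGroups Manifold

namespace Vale.Agent.P022.H23

noncomputable section

lemma qterm1 (n : ℕ) (τ : ℍ) : Periodic.qParam (1 : ℝ) τ ^ n =
    Complex.exp (2 * Real.pi * Complex.I * n * τ) := by
  rw [Periodic.qParam, ← Complex.exp_nat_mul]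
  congr 1
  push_cast
  ring

lemma hasQ_iff1 {f : ℍ → ℂ} {a : ℕ → ℂ} : HasQ f a ↔
    ∀ τ : ℍ, HasSum (fun n => a n • Periodic.qParam (1 : ℝ) τ ^ n) (f τ) := by
  unfold HasQ
  simp_rw [qterm1, smul_eq_mul]

lemma hasE_of_hasQ {f : ℍ → ℂ} {a : ℕ → ℂ} (h : HasQ f a) : HasE 1 a f := by
  intro τ
  have := h τ
  simpa using this

lemma periodic_of_hasQ {f : ℍ → ℂ} {a : ℕ → ℂ} (h : HasQ f a) :
    Periodic (f ∘ ofComplex) ((1 : ℝ) : ℂ) := by
  intro w
  simp only [Function.comp_apply]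
  by_cases hw : 0 < w.im
  · have hw1 : 0 < (w + ((1 : ℝ) : ℂ)).im := by simpa using hw
    rw [ofComplex_apply_of_im_pos hw, ofComplex_apply_of_im_pos hw1]
    refine (h ⟨w + ((1 : ℝ) : ℂ), hw1⟩).unique ?_
    have h1 := h ⟨w, hw⟩
    convert h1 using 2 with n
    congr 1
    have e : (2 * Real.pi * Complex.I * n * ((w + ((1 : ℝ) : ℂ) : ℂ)) : ℂ) =
        2 * Real.pi * Complex.I * n * w + n * (2 * Real.pi * Complex.I) := by
      push_cast; ring
    change Complex.exp (2 * Real.pi * Complex.I * n * ((w + ((1 : ℝ) : ℂ) : ℂ))) =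
      Complex.exp (2 * Real.pi * Complex.I * n * w)
    rw [e, Complex.exp_add, Complex.exp_nat_mul_two_pi_mul_I, mul_one]
  · have hw1 : (w + ((1 : ℝ) : ℂ)).im ≤ 0 := by simpa using not_lt.1 hw
    rw [ofComplex_apply_of_im_nonpos hw1, ofComplex_apply_of_im_nonpos (not_lt.1 hw)]

/-- Q2 -/
theorem Q2 : Q2_statement := by
  refine ⟨fun N _ k f => ?_, fun f a b ha hb => ?_⟩
  · have h1 : (1 : ℝ) ∈ ((Gamma1 N).map (SpecialLinearGroup.mapGL ℝ)).strictPeriods := by
      simp
    have : Fact (IsCusp OnePoint.infty ((Gamma1 N).map (SpecialLinearGroup.mapGL ℝ))) :=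
      ⟨Subgroup.isCusp_of_mem_strictPeriods one_pos h1⟩
    refine ⟨fun n => (qExpansion 1 f).coeff n, hasQ_iff1.2 fun τ => ?_⟩
    exact hasSum_qExpansion one_pos (SlashInvariantFormClass.periodic_comp_ofComplex f h1)
      (ModularFormClass.holo f) (ModularFormClass.bdd_at_infty f) τ
  · have han := analyticAt_cuspFunction_zero one_pos (periodic_of_hasQ ha) (hasE_of_hasQ ha).mdiff
      (hasE_of_hasQ ha).bdd
    have h1 := (hasFPowerSeriesOnBall_cuspFunction one_pos han (hasQ_iff1.1 ha)).hasFPowerSeriesAt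
    have h2 := (hasFPowerSeriesOnBall_cuspFunction one_pos han (hasQ_iff1.1 hb)).hasFPowerSeriesAt
    have h3 := h1.eq_formalMultilinearSeries h2
    ext n
    simpa using congr_arg (FormalMultilinearSeries.coeff · n) h3

/-- character sums modulo `l` -/
lemma sum_exp {l : ℕ} (hl : 0 < l) (n : ℕ) :
    ∑ j : Fin l, Complex.exp (2 * Real.pi * Complex.I * n * (j : ℕ) / l) =
      if l ∣ n then (l : ℂ) else 0 := by
  have hlc : (l : ℂ) ≠ 0 := by exact_mod_cast hl.ne'
  set ζ : ℂ := Complex.exp (2 * Real.pi * Complex.I / l) with hζ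
  have hprim : IsPrimitiveRoot ζ l := Complex.isPrimitiveRoot_exp l hl.ne'
  have h1 : ∀ j : Fin l, Complex.exp (2 * Real.pi * Complex.I * n * (j : ℕ) / l) =
      (ζ ^ n) ^ (j : ℕ) := by
    intro j
    rw [hζ, ← Complex.exp_nat_mul, ← Complex.exp_nat_mul]
    congr 1
    field_simp
  simp_rw [h1]
  rw [Fin.sum_univ_eq_sum_range (fun j => (ζ ^ n) ^ j)]
  split_ifs with h
  · rw [(hprim.pow_eq_one_iff_dvd n).2 h]
    simp
  · have h2 : ζ ^ n ≠ 1 := fun h3 => h ((hprim.pow_eq_one_iff_dvd n).1 h3)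
    rw [geom_sum_eq h2, ← pow_mul, mul_comm n l, pow_mul, hprim.pow_eq_one, one_pow, sub_self,
      zero_div]

/-- `f ↦ f((τ+j)/l)` -/
lemma slash_some {k : ℤ} {N l : ℕ} (hl : l.Prime) (f : ℍ → ℂ) (j : Fin l) (τ : ℍ) :
    ∃ τ' : ℍ, (τ' : ℂ) = (τ + (j : ℕ)) / l ∧
      (f ∣[k] ((hRep N l hl (some j)).map (algebraMap ℚ ℝ))) τ = (l : ℂ)⁻¹ * f τ' := by
  set A : GL (Fin 2) ℝ := (hRep N l hl (some j)).map (algebraMap ℚ ℝ) with hA
  have hlr : (0 : ℝ) < l := by exact_mod_cast hl.pos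
  have hlc : (l : ℂ) ≠ 0 := by exact_mod_cast hl.ne_zero
  have hAm : (A : Matrix (Fin 2) (Fin 2) ℝ) = !![(1 : ℝ), (j : ℕ); 0, l] := by
    rw [hA, hRep_coe]
    ext a b
    fin_cases a <;> fin_cases b <;> simp [hMat]
  have hdet : A.det.val = l := by
    rw [GeneralLinearGroup.val_det_apply, hAm, Matrix.det_fin_two_of]
    ring
  have hdpos : 0 < A.det.val := by rw [hdet]; exact hlr
  refine ⟨A • τ, ?_, ?_⟩
  · rw [coe_smul_of_det_pos hdpos]
    simp [num, denom, hAm]
  · rw [ModularForm.slash_apply, σ, if_pos hdpos, hdet]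
    have hden : denom A τ = l := by simp [denom, hAm]
    rw [hden, abs_of_pos hlr]
    simp only [ContinuousAlgEquiv.refl_apply]
    rw [mul_assoc, mul_comm]
    congr 1
    push_cast
    rw [← zpow_add₀ hlc, show k - 1 + -k = -1 by ring]
    exact _root_.zpow_neg_one _

/-- `f ↦ l^(k-1) (f|γ_l)(l τ)` -/
lemma slash_none {k : ℤ} {N l : ℕ} (hl : l.Prime) (f : ℍ → ℂ) (τ : ℍ) :
    ∃ τ' : ℍ, (τ' : ℂ) = l * τ ∧
      (f ∣[k] ((hRep N l hl none).map (algebraMap ℚ ℝ))) τ =
        (l : ℂ) ^ (k - 1) * (f ∣[k] (diaMat N l)) τ' := by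
  have hlr : (0 : ℝ) < l := by exact_mod_cast hl.pos
  have hlc : (l : ℂ) ≠ 0 := by exact_mod_cast hl.ne_zero
  set A : GL (Fin 2) ℝ := (rmat l 0 0 1 (by simpa using hl.ne_zero)).map (algebraMap ℚ ℝ) with hA
  have hAm : (A : Matrix (Fin 2) (Fin 2) ℝ) = !![(l : ℝ), 0; 0, 1] := by
    rw [hA, rmat_coe]
    ext a b
    fin_cases a <;> fin_cases b <;> simp
  have hdet : A.det.val = l := by
    rw [GeneralLinearGroup.val_det_apply, hAm, Matrix.det_fin_two_of]
    ring
  have hdpos : 0 < A.det.val := by rw [hdet]; exact hlr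
  have e1 : ((hRep N l hl none).map (algebraMap ℚ ℝ) : GL (Fin 2) ℝ) =
      SpecialLinearGroup.mapGL ℝ (diaMat N l) * A := by
    rw [hRep, map_mul, mapGL_rat]
  rw [e1, SlashAction.slash_mul, ← sl_slash]
  refine ⟨A • τ, ?_, ?_⟩
  · rw [coe_smul_of_det_pos hdpos]
    simp [num, denom, hAm]
  · rw [ModularForm.slash_apply (g := A), σ, if_pos hdpos, hdet]
    have hden : denom A τ = 1 := by simp [denom, hAm]
    rw [hden, abs_of_pos hlr, _root_.one_zpow, mul_one]
    simp only [ContinuousAlgEquiv.refl_apply]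
    rw [mul_comm]
    push_cast
    rfl

/-- Q1 -/
theorem Q1 : Q1_statement := by
  intro N _ k l hl hN f a a' ha ha' τ
  have hlc : (l : ℂ) ≠ 0 := by exact_mod_cast hl.ne_zero
  have hl0 : 0 < l := hl.pos
  have hinj : Function.Injective (fun n : ℕ => n * l) := fun x y h => Nat.eq_of_mul_eq_mul_right hl0 h
  -- the part of the upper triangular representatives
  choose t ht1 ht2 using fun j : Fin l => slash_some (k := k) (N := N) hl (f : ℍ → ℂ) j τ
  obtain ⟨t0, ht01, ht02⟩ := slash_none (k := k) (N := N) hl (f : ℍ → ℂ) τ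
  have h1 : HasSum (fun n : ℕ => a (n * l) * Complex.exp (2 * Real.pi * Complex.I * n * τ))
      (∑ j : Fin l, (l : ℂ)⁻¹ * f (t j)) := by
    have h2 : HasSum (fun n : ℕ => ∑ j : Fin l, (l : ℂ)⁻¹ *
        (a n * Complex.exp (2 * Real.pi * Complex.I * n * (t j)))) (∑ j : Fin l, (l : ℂ)⁻¹ * f (t j)) :=
      hasSum_sum fun j _ => (ha (t j)).mul_left _
    have h3 : ∀ n : ℕ, ∑ j : Fin l, (l : ℂ)⁻¹ *
        (a n * Complex.exp (2 * Real.pi * Complex.I * n * (t j))) =
        if l ∣ n then a n * Complex.exp (2 * Real.pi * Complex.I * n * τ / l) else 0 := by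
      intro n
      have h4 : ∀ j : Fin l, (l : ℂ)⁻¹ *
          (a n * Complex.exp (2 * Real.pi * Complex.I * n * (t j))) =
          (l : ℂ)⁻¹ * (a n * Complex.exp (2 * Real.pi * Complex.I * n * τ / l)) *
          Complex.exp (2 * Real.pi * Complex.I * n * (j : ℕ) / l) := by
        intro j
        rw [mul_assoc ((l : ℂ)⁻¹), mul_assoc (a n), ← Complex.exp_add, ht1]
        congr 3
        ring
      simp_rw [h4]
      rw [← Finset.mul_sum, sum_exp hl0]
      split_ifs
      · field_simp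
      · rw [mul_zero]
    simp_rw [h3] at h2
    rw [← hinj.hasSum_iff] at h2
    · convert h2 using 2 with n
      simp only [Function.comp_apply]
      rw [if_pos (dvd_mul_left l n)]
      congr 2
      push_cast
      field_simp
    · intro x hx
      rw [if_neg]
      rintro ⟨y, hy⟩
      exact hx ⟨y, by rw [hy]; exact mul_comm _ _⟩
  -- the remaining representative
  have h5 : HasSum (fun n : ℕ => (l : ℂ) ^ (k - 1) * (if l ∣ n then a' (n / l) else 0) *
      Complex.exp (2 * Real.pi * Complex.I * n * τ))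
      ((l : ℂ) ^ (k - 1) * (diamond N k l f) t0) := by
    have h6 := (ha' t0).mul_left ((l : ℂ) ^ (k - 1))
    rw [← hinj.hasSum_iff]
    · have e6 : ((fun n : ℕ => (l : ℂ) ^ (k - 1) * (if l ∣ n then a' (n / l) else 0) *
          Complex.exp (2 * Real.pi * Complex.I * n * τ)) ∘ fun n : ℕ => n * l) =
          fun n : ℕ => (l : ℂ) ^ (k - 1) * (a' n * Complex.exp (2 * Real.pi * Complex.I * n * t0)) := by
        funext n
        rw [Function.comp_apply, if_pos (dvd_mul_left l n), Nat.mul_div_cancel _ hl0, mul_assoc,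
          ht01]
        congr 3
        push_cast
        ring
      rw [e6]
      exact h6
    · intro x hx
      rw [if_neg, mul_zero, zero_mul]
      rintro ⟨y, hy⟩
      exact hx ⟨y, by rw [hy]; exact mul_comm _ _⟩
  have h7 := h1.add h5
  have e : (heckeOp N k l hl hN f) τ =
      ∑ j : Fin l, (l : ℂ)⁻¹ * f (t j) + (l : ℂ) ^ (k - 1) * (diamond N k l f) t0 := by
    have h8 := congrFun (heckeOp_coe hl hN f) τ
    rw [h8, Finset.sum_apply, Fintype.sum_option, ht02, add_comm]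
    simp_rw [ht2]
    rfl
  rw [e]
  convert h7 using 2 with n
  ring

end

end Vale.Agent.P022.H23
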