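import Vale.Agent.P022.H23.Four
import Mathlib.LinearAlgebra.Matrix.FixedDetMatrices
import Mathlib.NumberTheory.ModularForms.SlashActions

/-!
# P022, package W: theta series at all cusps
-/

open Complex Finset UpperHalfPlane ModularGroup
open scoped Real MatrixGroups
open Vale.Agent.P267.H775 (toR toR_apply chr)

namespace Vale.Agent.P022.H23

noncomputable section

/-- functions on `L^# / L` -/
def Per (Q : BQ) (F : (Fin 2 → ℤ) → ℂ) : Prop := ∀ k n : Fin 2 → ℤ, F (k + Q.gr n) = F k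

/-- theta series over the dual lattice -/
def TF (φ : ℂ → (Fin 2 → ℝ) → ℂ) (Q : BQ) (F : (Fin 2 → ℤ) → ℂ) (z : ℂ) : ℂ :=
  ∑' k : Fin 2 → ℤ, F k * φ z (Q.dr k)

lemma Per.perM {Q : BQ} {F : (Fin 2 → ℤ) → ℂ} (hF : Per Q F) : PerM Q.det.natAbs F := by
  intro x n
  obtain ⟨s, hsd⟩ : ∃ s : ℤ, (Q.det.natAbs : ℤ) = s * Q.det := by
    rcases Int.natAbs_eq Q.det with h | h
    · exact ⟨1, by rw [one_mul]; exact h.symm⟩
    · exact ⟨-1, by omega⟩
  rw [hsd, mul_comm, mul_smul, ← Q.gr_dl (s • n), hF]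

lemma Per.bdd {Q : BQ} (hQ : Q.det ≠ 0) {F : (Fin 2 → ℤ) → ℂ} (hF : Per Q F) :
    ∃ B : ℝ, ∀ x, ‖F x‖ ≤ B := by
  have : NeZero Q.det.natAbs := ⟨Int.natAbs_ne_zero.2 hQ⟩
  exact hF.perM.bdd

lemma Per.finite_range {Q : BQ} (hQ : Q.det ≠ 0) {F : (Fin 2 → ℤ) → ℂ} (hF : Per Q F) :
    (Set.range F).Finite := by
  have : NeZero Q.det.natAbs := ⟨Int.natAbs_ne_zero.2 hQ⟩
  refine (Set.finite_range (fun r : Fin 2 → ZMod Q.det.natAbs => F (rv r))).subset ?_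
  rintro _ ⟨x, rfl⟩
  exact ⟨md Q.det.natAbs x, hF.perM.congr (by rw [md_rv])⟩

lemma BQ.gr_add (Q : BQ) (x y : Fin 2 → ℤ) : Q.gr (x + y) = Q.gr x + Q.gr y := by
  funext i
  fin_cases i
  · simp [BQ.gr]; ring
  · simp [BQ.gr]; ring

lemma BQ.gr_smul (Q : BQ) (t : ℤ) (x : Fin 2 → ℤ) : Q.gr (t • x) = t • Q.gr x := by
  funext i
  fin_cases i
  · simp [BQ.gr]; ring
  · simp [BQ.gr]; ring

lemma BQ.gr_injective (Q : BQ) (hQ : Q.det ≠ 0) : Function.Injective Q.gr := by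
  intro x y h
  have h2 : Q.det • x = Q.det • y := by rw [← Q.dl_gr, ← Q.dl_gr, h]
  funext i
  have h3 := congrFun h2 i
  simp only [Pi.smul_apply, smul_eq_mul] at h3
  exact mul_left_cancel₀ hQ h3

lemma BQ.qd_gr (Q : BQ) (k n : Fin 2 → ℤ) :
    Q.qd (k + Q.gr n) = Q.qd k + Q.det * (dt k n + Q.q n) := by
  simp only [BQ.qd, BQ.gr, BQ.det, BQ.q, dt, Pi.add_apply, Matrix.cons_val_zero,
    Matrix.cons_val_one]
  simp
  ring

lemma BQ.dt_gr (Q : BQ) (x y : Fin 2 → ℤ) : dt x (Q.gr y) = dt y (Q.gr x) := by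
  simp only [BQ.gr, dt, Matrix.cons_val_zero, Matrix.cons_val_one]
  ring

/-- the operator `T^t` -/
def opT (Q : BQ) (t : ℤ) (F : (Fin 2 → ℤ) → ℂ) : (Fin 2 → ℤ) → ℂ :=
  fun k => ee ((t : ℝ) * ((Q.qd k : ℝ) / Q.det)) * F k

lemma Per.opT {Q : BQ} (hQ : Q.det ≠ 0) {F : (Fin 2 → ℤ) → ℂ} (hF : Per Q F) (t : ℤ) :
    Per Q (opT Q t F) := by
  intro k n
  have h : (Q.det : ℝ) ≠ 0 := by exact_mod_cast hQ
  unfold H23.opT
  rw [hF, Q.qd_gr]
  congr 1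
  refine ee_eq_of_int (t * (dt k n + Q.q n)) ?_
  push_cast
  field_simp

lemma Ker.TF_T {Q : BQ} {φ : ℂ → (Fin 2 → ℝ) → ℂ} {C : ℂ} (H : Ker Q φ C) (hQ : Q.det ≠ 0)
    (F : (Fin 2 → ℤ) → ℂ) (t : ℤ) {z : ℂ} (hz : 0 < z.im) :
    TF φ Q F (z + t) = TF φ Q (opT Q t F) z := by
  unfold TF H23.opT
  refine tsum_congr fun k => ?_
  have h1 := H.add z hz t (Q.dr k)
  rw [Q.q_dr hQ] at h1
  have h2 : (z + t : ℂ) = z + ((t : ℝ) : ℂ) := by push_cast; rfl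
  rw [h2, h1]
  ring

lemma Ker.summable_TF {Q : BQ} {φ : ℂ → (Fin 2 → ℝ) → ℂ} {C : ℂ} (H : Ker Q φ C)
    (hQ : Q.det ≠ 0) {F : (Fin 2 → ℤ) → ℂ} (hF : Per Q F) {z : ℂ} (hz : 0 < z.im) :
    Summable fun k : Fin 2 → ℤ => F k * φ z (Q.dr k) := by
  obtain ⟨B, hB⟩ := hF.bdd hQ
  refine Summable.of_norm_bounded (g := fun k => B * ‖φ z (Q.dr k)‖)
    ((H.summable_dr hQ hz).norm.mul_left B) fun k => ?_
  rw [norm_mul]
  exact mul_le_mul_of_nonneg_right (hB k) (norm_nonneg _)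

/-- characteristic function of `k₀ + A ℤ²` -/
def cs (Q : BQ) (k₀ : Fin 2 → ℤ) : (Fin 2 → ℤ) → ℂ := by
  classical
  exact fun k => if k ∈ Set.range (fun n : Fin 2 → ℤ => k₀ + Q.gr n) then 1 else 0

lemma cs_per (Q : BQ) (k₀ : Fin 2 → ℤ) : Per Q (cs Q k₀) := by
  classical
  intro k n
  unfold cs
  have h1 : (k + Q.gr n ∈ Set.range (fun m : Fin 2 → ℤ => k₀ + Q.gr m)) ↔
      (k ∈ Set.range (fun m : Fin 2 → ℤ => k₀ + Q.gr m)) := by
    constructor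
    · rintro ⟨m, hm⟩
      refine ⟨m - n, ?_⟩
      have h2 : Q.gr (m - n) + Q.gr n = Q.gr m := by rw [← Q.gr_add, sub_add_cancel]
      simp only at hm ⊢
      rw [← h2, ← add_assoc] at hm
      exact add_right_cancel hm
    · rintro ⟨m, hm⟩
      refine ⟨m + n, ?_⟩
      simp only at hm ⊢
      rw [Q.gr_add, ← add_assoc, hm]
  simp only [h1]

lemma TF_cs (φ : ℂ → (Fin 2 → ℝ) → ℂ) {Q : BQ} (hQ : Q.det ≠ 0) (k₀ : Fin 2 → ℤ) (z : ℂ) :
    TF φ Q (cs Q k₀) z = ∑' n : Fin 2 → ℤ, φ z (Q.dr k₀ + toR n) := by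
  classical
  unfold TF
  have hinj : Function.Injective (fun n : Fin 2 → ℤ => k₀ + Q.gr n) := by
    intro x y h
    exact Q.gr_injective hQ (add_left_cancel h)
  have hs : Function.support (fun k => cs Q k₀ k * φ z (Q.dr k)) ⊆
      Set.range (fun n : Fin 2 → ℤ => k₀ + Q.gr n) := by
    intro k hk
    by_contra h
    apply hk
    simp only [cs, h, if_false, zero_mul]
  rw [← hinj.tsum_eq hs]
  refine tsum_congr fun n => ?_
  have h1 : cs Q k₀ (k₀ + Q.gr n) = 1 := by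
    unfold cs
    rw [if_pos ⟨n, rfl⟩]
  rw [h1, one_mul, Q.dr_add, Q.dr_gr hQ]

/-- the integral point representing a Fourier frequency in `L^#` (junk if there is none) -/
def kk (Q : BQ) {N : ℕ} (j : Fin 2 → ZMod N) : Fin 2 → ℤ :=
  fun i => Q.gr (rv j) i / (N : ℤ)

/-- the operator `S` -/
def opS (Q : BQ) (C : ℂ) [NeZero Q.det.natAbs] (F : (Fin 2 → ℤ) → ℂ) : (Fin 2 → ℤ) → ℂ :=
  fun k => C⁻¹ * ∑ j : Fin 2 → ZMod Q.det.natAbs, Fh Q.det.natAbs F j * cs Q (kk Q j) k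

lemma opS_per (Q : BQ) (C : ℂ) [NeZero Q.det.natAbs] (F : (Fin 2 → ℤ) → ℂ) :
    Per Q (opS Q C F) := by
  intro k n
  unfold opS
  simp_rw [cs_per Q _ k n]

lemma ee_eq_one_iff (x : ℝ) : ee x = 1 ↔ ∃ n : ℤ, x = n := by
  unfold ee
  rw [Complex.exp_eq_one_iff]
  constructor
  · rintro ⟨n, hn⟩
    refine ⟨n, ?_⟩
    have hpi : (2 * (π : ℂ) * Complex.I) ≠ 0 := Complex.two_pi_I_ne_zero
    have h1 : (x : ℂ) = n := by
      apply mul_left_cancel₀ hpi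
      rw [hn]; ring
    exact_mod_cast h1
  · rintro ⟨n, rfl⟩
    exact ⟨n, by push_cast; ring⟩

lemma kk_spec {Q : BQ} (hQ : Q.det ≠ 0) {N : ℕ} [NeZero N] {F : (Fin 2 → ℤ) → ℂ}
    (hF : Per Q F) (hFN : PerM N F) (j : Fin 2 → ZMod N) (hj : Fh N F j ≠ 0) :
    Q.dr (kk Q j) = ((N : ℝ)⁻¹) • toR (rv j) := by
  have hN0 : (N : ℝ) ≠ 0 := by exact_mod_cast NeZero.ne N
  have hNz : (N : ℤ) ≠ 0 := by exact_mod_cast NeZero.ne N
  -- integrality
  have h1 : ∀ n : Fin 2 → ℤ, (N : ℤ) ∣ dt (rv j) (Q.gr n) := by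
    intro n
    have h2 := Fh_shift hFN (Q.gr n) (fun k => hF k n) j
    have h3 : ee (((dt (rv j) (Q.gr n) : ℤ) : ℝ) / N) = 1 := by
      have h4 : (ee (((dt (rv j) (Q.gr n) : ℤ) : ℝ) / N) - 1) * Fh N F j = 0 := by
        rw [sub_mul, one_mul, sub_eq_zero]
        exact h2.symm
      rcases mul_eq_zero.1 h4 with h | h
      · exact sub_eq_zero.1 h
      · exact absurd h hj
    obtain ⟨m, hm⟩ := (ee_eq_one_iff _).1 h3
    refine ⟨m, ?_⟩
    have h5 : ((dt (rv j) (Q.gr n) : ℤ) : ℝ) = N * m := by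
      rw [← hm]; field_simp
    exact_mod_cast h5
  have h2 : ∀ i, (N : ℤ) ∣ Q.gr (rv j) i := by
    intro i
    fin_cases i
    · have h3 := h1 ![1, 0]
      rw [Q.dt_gr] at h3
      simpa [dt] using h3
    · have h3 := h1 ![0, 1]
      rw [Q.dt_gr] at h3
      simpa [dt] using h3
  have h3 : (N : ℤ) • kk Q j = Q.gr (rv j) := by
    funext i
    simp only [Pi.smul_apply, smul_eq_mul, kk]
    exact Int.mul_ediv_cancel' (h2 i)
  have h4 : (N : ℝ) • Q.dr (kk Q j) = toR (rv j) := by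
    rw [← Q.dr_gr hQ, ← h3]
    unfold BQ.dr
    rw [Q.dl_smul, toR_smul, smul_comm]
    push_cast
    rfl
  rw [← h4, smul_smul, inv_mul_cancel₀ hN0, one_smul]

lemma Ker.TF_S {Q : BQ} {φ : ℂ → (Fin 2 → ℝ) → ℂ} {C : ℂ} (H : Ker Q φ C) (hC : C ≠ 0)
    (hQ : Q.det ≠ 0) [NeZero Q.det.natAbs] {F : (Fin 2 → ℤ) → ℂ} (hF : Per Q F) {z : ℂ}
    (hz : 0 < z.im) :
    TF φ Q F (-1 / z) = z * TF φ Q (opS Q C F) z := by
  set N : ℕ := Q.det.natAbs with hN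
  have hz0 : z ≠ 0 := by rintro rfl; simp at hz
  have hsd := H.summable_dr hQ (im_neg_inv hz)
  -- left-hand side
  have h1 : TF φ Q F (-1 / z) = ∑ j : Fin 2 → ZMod N, Fh N F j *
      ∑' k : Fin 2 → ℤ, ee (((dt k (rv j) : ℤ) : ℝ) / N) * φ (-1 / z) (Q.dr k) := by
    unfold TF
    simp_rw [← tsum_mul_left]
    rw [← Summable.tsum_finsetSum]
    · refine tsum_congr fun k => ?_
      rw [inv_Fh hF.perM k, Finset.sum_mul]
      exact Finset.sum_congr rfl fun j _ => by ring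
    · intro j _
      refine Summable.mul_left _ (Summable.of_norm ?_)
      simp_rw [norm_mul, norm_ee, one_mul]
      exact hsd.norm
  have h2 : ∀ j : Fin 2 → ZMod N,
      ∑' k : Fin 2 → ℤ, ee (((dt k (rv j) : ℤ) : ℝ) / N) * φ (-1 / z) (Q.dr k) =
      z / C * ∑' n : Fin 2 → ℤ, φ z (((N : ℝ)⁻¹) • toR (rv j) + toR n) := by
    intro j
    rw [H.pois z hz]
    rw [← mul_assoc, div_mul_div_comm, mul_comm z C, div_self (mul_ne_zero hC hz0), one_mul]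
    refine tsum_congr fun k => ?_
    congr 1
    unfold chr ee dt
    congr 1
    simp only [Fin.sum_univ_two, Pi.smul_apply, toR_apply, smul_eq_mul]
    push_cast
    ring
  have h3 : z * TF φ Q (opS Q C F) z = ∑ j : Fin 2 → ZMod N, Fh N F j *
      (z / C * ∑' n : Fin 2 → ℤ, φ z (Q.dr (kk Q j) + toR n)) := by
    have e1 : ∀ j : Fin 2 → ZMod N, Fh N F j *
      (z / C * ∑' n : Fin 2 → ℤ, φ z (Q.dr (kk Q j) + toR n)) =
        z * ∑' k : Fin 2 → ℤ, (C⁻¹ * (Fh N F j * cs Q (kk Q j) k)) * φ z (Q.dr k) := by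
      intro j
      rw [← TF_cs φ hQ]
      unfold TF
      rw [← tsum_mul_left, ← tsum_mul_left, ← tsum_mul_left]
      refine tsum_congr fun k => ?_
      rw [div_eq_mul_inv]
      ring
    simp_rw [e1]
    rw [← Finset.mul_sum]
    congr 1
    unfold TF opS
    rw [← Summable.tsum_finsetSum]
    · refine tsum_congr fun k => ?_
      rw [Finset.mul_sum, Finset.sum_mul]
    · intro j _
      have h4 := (H.summable_TF hQ (cs_per Q (kk Q j)) hz).mul_left (C⁻¹ * Fh N F j)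
      refine h4.congr fun k => ?_
      ring
  rw [h1, h3]
  refine Finset.sum_congr rfl fun j _ => ?_
  rw [h2]
  by_cases hj : Fh N F j = 0
  · rw [hj, zero_mul, zero_mul]
  · rw [kk_spec hQ hF hF.perM j hj]

end

end Vale.Agent.P022.H23
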