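import Vale.Agent.P022.H23.Cusp

/-!
# P022, package W: theta series at all cusps, the full modular group
-/

open Complex Finset UpperHalfPlane ModularGroup
open scoped Real MatrixGroups ModularForm
open Vale.Agent.P267.H775 (toR toR_apply chr)

namespace Vale.Agent.P022.H23

noncomputable section

/-- the theta series as a function on the upper half plane -/
def TFH (φ : ℂ → (Fin 2 → ℝ) → ℂ) (Q : BQ) (F : (Fin 2 → ℤ) → ℂ) : ℍ → ℂ :=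
  fun τ => TF φ Q F (τ : ℂ)

/-- closure property under `γ` -/
def ClP (Q : BQ) (C : ℂ) (γ : SL(2, ℤ)) : Prop :=
  ∀ F : (Fin 2 → ℤ) → ℂ, Per Q F → ∃ F' : (Fin 2 → ℤ) → ℂ, Per Q F' ∧
    ∀ φ : ℂ → (Fin 2 → ℝ) → ℂ, Ker Q φ C → TFH φ Q F ∣[(1 : ℤ)] γ = TFH φ Q F'

lemma ClP.mul {Q : BQ} {C : ℂ} {x y : SL(2, ℤ)} (hx : ClP Q C x) (hy : ClP Q C y) :
    ClP Q C (x * y) := by
  intro F hF
  obtain ⟨F1, hF1, h1⟩ := hx F hF
  obtain ⟨F2, hF2, h2⟩ := hy F1 hF1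
  refine ⟨F2, hF2, fun φ H => ?_⟩
  rw [SlashAction.slash_mul, h1 φ H, h2 φ H]

lemma ClP_S {Q : BQ} (hQ : Q.det ≠ 0) {C : ℂ} (hC : C ≠ 0) : ClP Q C S := by
  have : NeZero Q.det.natAbs := ⟨Int.natAbs_ne_zero.2 hQ⟩
  intro F hF
  refine ⟨opS Q C F, opS_per Q C F, fun φ H => ?_⟩
  funext τ
  have h1 := H.TF_S hC hQ hF τ.im_pos
  have h2 : ((S • τ : ℍ) : ℂ) = -1 / (τ : ℂ) := by
    rw [modular_S_smul]
    change (-(τ : ℂ))⁻¹ = -1 / (τ : ℂ)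
    rw [inv_neg, neg_div, one_div]
  have h3 : (τ : ℂ) ≠ 0 := τ.ne_zero
  rw [ModularForm.SL_slash_apply, denom_S]
  unfold TFH
  rw [h2, h1, zpow_neg, zpow_one]
  field_simp

lemma ClP_T {Q : BQ} (hQ : Q.det ≠ 0) {C : ℂ} (n : ℤ) : ClP Q C (T ^ n) := by
  intro F hF
  refine ⟨opT Q n F, hF.opT hQ n, fun φ H => ?_⟩
  funext τ
  have h1 := H.TF_T hQ F n τ.im_pos
  have h2 : ((T ^ n • τ : ℍ) : ℂ) = (τ : ℂ) + n := by
    rw [modular_T_zpow_smul, coe_vadd]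
    push_cast
    ring
  have h3 : denom (T ^ n : SL(2, ℤ)) τ = 1 := by
    rw [denom_apply, coe_T_zpow]
    simp
  rw [ModularForm.SL_slash_apply, h3, one_zpow, mul_one]
  unfold TFH
  rw [h2]
  exact h1

/-- W2b -/
theorem ClP_all {Q : BQ} (hQ : Q.det ≠ 0) {C : ℂ} (hC : C ≠ 0) (γ : SL(2, ℤ)) : ClP Q C γ := by
  have hγ : γ ∈ Subgroup.closure {S, T} := by
    simp [SpecialLinearGroup.SL2Z_generators]
  induction hγ using Subgroup.closure_induction'' with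
  | one =>
    intro F hF
    exact ⟨F, hF, fun φ _ => SlashAction.slash_one _ _⟩
  | mem x hx =>
    simp only [Set.mem_insert_iff, Set.mem_singleton_iff] at hx
    rcases hx with rfl | rfl
    · exact ClP_S hQ hC
    · simpa using ClP_T (C := C) hQ 1
  | inv_mem x hx =>
    simp only [Set.mem_insert_iff, Set.mem_singleton_iff] at hx
    rcases hx with rfl | rfl
    · have h1 : (S⁻¹ : SL(2, ℤ)) = S * S * S := by
        rw [inv_eq_iff_mul_eq_one]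
        ext i j
        fin_cases i <;> fin_cases j <;> rfl
      rw [h1]
      exact ((ClP_S hQ hC).mul (ClP_S hQ hC)).mul (ClP_S hQ hC)
    · have := ClP_T (C := C) hQ (-1)
      rwa [zpow_neg_one] at this
  | mul x y _ _ hx hy => exact hx.mul hy

/-- rescaled form `M² Q` -/
def BQ.sc (Q : BQ) (M : ℕ) : BQ := ⟨(M : ℤ) ^ 2 * Q.a, (M : ℤ) ^ 2 * Q.b, (M : ℤ) ^ 2 * Q.c⟩

lemma BQ.sc_det (Q : BQ) (M : ℕ) : (Q.sc M).det = (M : ℤ) ^ 4 * Q.det := by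
  simp only [BQ.sc, BQ.det]; ring

lemma BQ.sc_det_ne {Q : BQ} (hQ : Q.det ≠ 0) {M : ℕ} (hM : 0 < M) : (Q.sc M).det ≠ 0 := by
  rw [Q.sc_det]
  exact mul_ne_zero (pow_ne_zero _ (by exact_mod_cast hM.ne')) hQ

lemma BQ.sc_q (Q : BQ) (M : ℕ) (x : Fin 2 → ℝ) : (Q.sc M).q x = Q.q ((M : ℝ) • x) := by
  simp only [BQ.sc, BQ.q, Pi.smul_apply, smul_eq_mul]; push_cast; ring

lemma BQ.sc_gr (Q : BQ) (M : ℕ) (n : Fin 2 → ℤ) : (Q.sc M).gr n = ((M : ℤ) ^ 2) • Q.gr n := by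
  funext i
  fin_cases i
  · simp [BQ.gr, BQ.sc]; ring
  · simp [BQ.gr, BQ.sc]; ring

lemma BQ.sc_dr {Q : BQ} (hQ : Q.det ≠ 0) {M : ℕ} (hM : 0 < M) (k : Fin 2 → ℤ) :
    (Q.sc M).dr k = ((M : ℝ) ^ 2)⁻¹ • Q.dr k := by
  have h1 : (Q.det : ℝ) ≠ 0 := by exact_mod_cast hQ
  have h2 : (M : ℝ) ≠ 0 := by exact_mod_cast hM.ne'
  have h3 : (Q.sc M).dl k = ((M : ℤ) ^ 2) • Q.dl k := by
    funext i
    fin_cases i
    · simp [BQ.dl, BQ.sc]; ring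
    · simp [BQ.dl, BQ.sc]; ring
  unfold BQ.dr
  rw [h3, Q.sc_det, toR_smul, smul_smul, smul_smul]
  congr 1
  push_cast
  field_simp

/-- rescaled kernel -/
def sck (φ : ℂ → (Fin 2 → ℝ) → ℂ) (M : ℕ) : ℂ → (Fin 2 → ℝ) → ℂ := fun z x => φ z ((M : ℝ) • x)

theorem Ker.sc {Q : BQ} {φ : ℂ → (Fin 2 → ℝ) → ℂ} {C : ℂ} (H : Ker Q φ C) (hQ : Q.det ≠ 0)
    {M : ℕ} (hM : 0 < M) : Ker (Q.sc M) (sck φ M) (C / (M : ℂ) ^ 2) where
  add z hz r x := by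
    unfold sck
    rw [H.add z hz, Q.sc_q]
  scale z hz d hd x := by
    unfold sck
    rw [H.scale z hz d hd, smul_comm]
  sum z hz x := by
    have hM' : (0 : ℝ) < M := by exact_mod_cast hM
    have hz2 : 0 < (((M : ℝ) : ℂ) ^ 2 * z : ℂ).im := by
      rw [show (((M : ℝ) : ℂ) ^ 2 * z : ℂ) = (((M : ℝ) ^ 2 : ℝ) : ℂ) * z by push_cast; ring,
        Complex.im_ofReal_mul]
      positivity
    refine (H.sum _ hz2 x).congr fun n => ?_
    unfold sck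
    rw [H.scale z hz _ hM']
  pois z hz x := by
    have hM' : (0 : ℝ) < M := by exact_mod_cast hM
    have hMc : (M : ℂ) ≠ 0 := by exact_mod_cast hM.ne'
    have hz0 : z ≠ 0 := by rintro rfl; simp at hz
    have hz2 : 0 < (((M : ℝ) : ℂ) ^ 2 * z : ℂ).im := by
      rw [show (((M : ℝ) : ℂ) ^ 2 * z : ℂ) = (((M : ℝ) ^ 2 : ℝ) : ℂ) * z by push_cast; ring,
        Complex.im_ofReal_mul]
      positivity
    have h1 : ∀ n : Fin 2 → ℤ, sck φ M z (x + toR n) = φ (((M : ℝ) : ℂ) ^ 2 * z) (x + toR n) := by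
      intro n
      unfold sck
      rw [H.scale z hz _ hM']
    simp_rw [h1]
    rw [H.pois _ hz2 x]
    have h2 : C / (((M : ℝ) : ℂ) ^ 2 * z) = C / (M : ℂ) ^ 2 / z := by
      push_cast
      field_simp
    rw [h2]
    congr 1
    refine tsum_congr fun k => ?_
    congr 1
    unfold sck
    rw [BQ.sc_dr hQ hM, smul_smul]
    have h3 := H.scale (-1 / z) (im_neg_inv hz) (M : ℝ)⁻¹ (by positivity) (Q.dr k)
    have h4 : (M : ℝ) * ((M : ℝ) ^ 2)⁻¹ = (M : ℝ)⁻¹ := by field_simp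
    rw [h4, ← h3]
    congr 1
    push_cast
    field_simp

/-- the coefficient function of `Tf` in terms of `TF` -/
def toF (Q : BQ) (M : ℕ) (f : (Fin 2 → ℤ) → ℂ) : (Fin 2 → ℤ) → ℂ :=
  Function.extend (fun x : Fin 2 → ℤ => (M : ℤ) • Q.gr x) f 0

lemma mgr_injective {Q : BQ} (hQ : Q.det ≠ 0) {M : ℕ} (hM : 0 < M) :
    Function.Injective (fun x : Fin 2 → ℤ => (M : ℤ) • Q.gr x) := by
  intro x y h
  refine Q.gr_injective hQ (funext fun i => ?_)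
  have h1 := congrFun h i
  simp only [Pi.smul_apply, smul_eq_mul] at h1
  exact mul_left_cancel₀ (by exact_mod_cast hM.ne') h1

lemma toF_per {Q : BQ} (hQ : Q.det ≠ 0) {M : ℕ} (hM : 0 < M) {f : (Fin 2 → ℤ) → ℂ}
    (hf : PerM M f) : Per (Q.sc M) (toF Q M f) := by
  have hinj := mgr_injective hQ hM
  intro k n
  have e1 : ∀ x : Fin 2 → ℤ, (M : ℤ) • Q.gr x + (Q.sc M).gr n = (M : ℤ) • Q.gr (x + (M : ℤ) • n) := by
    intro x
    rw [Q.sc_gr, Q.gr_add, Q.gr_smul, smul_add, smul_smul, sq]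
  by_cases hk : ∃ x : Fin 2 → ℤ, (M : ℤ) • Q.gr x = k
  · obtain ⟨x, rfl⟩ := hk
    rw [e1]
    unfold toF
    rw [hinj.extend_apply f 0 (x + (M : ℤ) • n), hinj.extend_apply f 0 x, hf]
  · have hk2 : ¬ ∃ x : Fin 2 → ℤ, (M : ℤ) • Q.gr x = k + (Q.sc M).gr n := by
      rintro ⟨x, hx⟩
      apply hk
      refine ⟨x - (M : ℤ) • n, ?_⟩
      have h1 := e1 (x - (M : ℤ) • n)
      rw [sub_add_cancel, hx] at h1
      exact add_right_cancel h1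
    unfold toF
    rw [Function.extend_apply' _ _ _ hk, Function.extend_apply' _ _ _ hk2]
    rfl

theorem Tf_eq_TF (φ : ℂ → (Fin 2 → ℝ) → ℂ) {Q : BQ} (hQ : Q.det ≠ 0) {M : ℕ} (hM : 0 < M)
    (f : (Fin 2 → ℤ) → ℂ) (z : ℂ) : Tf φ f z = TF (sck φ M) (Q.sc M) (toF Q M f) z := by
  have hinj := mgr_injective hQ hM
  have hM' : (M : ℝ) ≠ 0 := by exact_mod_cast hM.ne'
  unfold TF Tf
  have hs : Function.support (fun k => toF Q M f k * sck φ M z ((Q.sc M).dr k)) ⊆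
      Set.range (fun x : Fin 2 → ℤ => (M : ℤ) • Q.gr x) := by
    intro k hk
    by_contra h
    apply hk
    simp only
    unfold toF
    rw [Function.extend_apply' _ _ _ h, Pi.zero_apply, zero_mul]
  rw [← hinj.tsum_eq hs]
  refine tsum_congr fun x => ?_
  unfold toF
  rw [hinj.extend_apply f 0 x]
  congr 1
  unfold sck
  congr 1
  rw [BQ.sc_dr hQ hM, smul_smul]
  have h1 : Q.dr ((M : ℤ) • Q.gr x) = (M : ℝ) • toR x := by
    rw [← Q.dr_gr hQ]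
    unfold BQ.dr
    rw [Q.dl_smul, toR_smul, smul_comm]
    push_cast
    rfl
  rw [h1, smul_smul]
  have h2 : (M : ℝ) * ((M : ℝ) ^ 2)⁻¹ * M = 1 := by field_simp
  rw [h2, one_smul]

/-- W2b for `Tf` -/
theorem Tf_SL2 {Q : BQ} (hQ : Q.det ≠ 0) {C : ℂ} (hC : C ≠ 0) {M : ℕ} (hM : 0 < M)
    {f : (Fin 2 → ℤ) → ℂ} (hf : PerM M f) (γ : SL(2, ℤ)) :
    ∃ F' : (Fin 2 → ℤ) → ℂ, Per (Q.sc M) F' ∧
      ∀ φ : ℂ → (Fin 2 → ℝ) → ℂ, Ker Q φ C →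
        (fun τ : ℍ => Tf φ f (τ : ℂ)) ∣[(1 : ℤ)] γ = TFH (sck φ M) (Q.sc M) F' := by
  have hMc : (M : ℂ) ≠ 0 := by exact_mod_cast hM.ne'
  obtain ⟨F', hF', h⟩ := ClP_all (BQ.sc_det_ne hQ hM) (C := C / (M : ℂ) ^ 2)
    (div_ne_zero hC (pow_ne_zero 2 hMc)) γ (toF Q M f) (toF_per hQ hM hf)
  refine ⟨F', hF', fun φ H => ?_⟩
  rw [← h (sck φ M) (H.sc hQ hM)]
  congr 1
  funext τ
  exact Tf_eq_TF φ hQ hM f _

end

end Vale.Agent.P022.H23
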