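import Vale.Agent.P022.H23.Tr2
import Mathlib.Analysis.Fourier.ZMod

/-!
# P022, package W: finite Fourier transform on `(ℤ/N)²`
-/

open Complex Finset
open scoped Real
open Vale.Agent.P267.H775 (toR toR_apply chr)

namespace Vale.Agent.P022.H23

noncomputable section

/-- finite Fourier coefficient -/
def Fh (N : ℕ) [NeZero N] (F : (Fin 2 → ℤ) → ℂ) (j : Fin 2 → ZMod N) : ℂ :=
  ((N : ℂ) ^ 2)⁻¹ * ∑ r : Fin 2 → ZMod N, F (rv r) * ee (((-dt (rv j) (rv r) : ℤ) : ℝ) / N)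

lemma ee_eq_std {N : ℕ} [NeZero N] (x : ℤ) : ee ((x : ℝ) / N) = ZMod.stdAddChar (x : ZMod N) :=
  (stdAddChar_eq x).symm

lemma sum_pair {N : ℕ} [NeZero N] (g : ZMod N → ZMod N → ℂ) :
    ∑ j : Fin 2 → ZMod N, g (j 0) (j 1) = ∑ y : ZMod N, ∑ x : ZMod N, g x y := by
  rw [← (finTwoArrowEquiv (ZMod N)).symm.sum_comp, Fintype.sum_prod_type_right]
  rfl

lemma sum_std {N : ℕ} [NeZero N] (t : ZMod N) :
    ∑ x : ZMod N, (ZMod.stdAddChar (x * t) : ℂ) = if t = 0 then (N : ℂ) else 0 := by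
  have h := AddChar.sum_mulShift (R := ZMod N) t (ZMod.isPrimitive_stdAddChar N)
  rw [h]
  split_ifs
  · simp [ZMod.card]
  · simp

lemma sum_dt {N : ℕ} [NeZero N] (t : Fin 2 → ZMod N) :
    ∑ j : Fin 2 → ZMod N, (ZMod.stdAddChar (dt j t) : ℂ) =
      if t = 0 then (N : ℂ) ^ 2 else 0 := by
  have h1 := sum_pair (N := N) (fun x y => (ZMod.stdAddChar (x * t 0 + y * t 1) : ℂ))
  unfold dt
  rw [h1]
  simp_rw [AddChar.map_add_eq_mul, ← Finset.sum_mul, ← Finset.mul_sum, sum_std]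
  by_cases h0 : t 0 = 0
  · by_cases h2 : t 1 = 0
    · have h3 : t = 0 := by funext i; fin_cases i <;> simp [h0, h2]
      simp [h3, sq]
    · have h3 : t ≠ 0 := fun h => h2 (congrFun h 1)
      simp [h2, h3]
  · have h3 : t ≠ 0 := fun h => h0 (congrFun h 0)
    simp [h0, h3]

lemma md_dt {N : ℕ} (x y : Fin 2 → ℤ) : ((dt x y : ℤ) : ZMod N) = dt (md N x) (md N y) := by
  simp [dt, md]

/-- Fourier inversion -/
lemma inv_Fh {N : ℕ} [NeZero N] {F : (Fin 2 → ℤ) → ℂ} (hF : PerM N F) (k : Fin 2 → ℤ) :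
    F k = ∑ j : Fin 2 → ZMod N, Fh N F j * ee (((dt k (rv j) : ℤ) : ℝ) / N) := by
  have hN : (N : ℂ) ≠ 0 := by exact_mod_cast NeZero.ne N
  have h1 : ∀ j : Fin 2 → ZMod N, Fh N F j * ee (((dt k (rv j) : ℤ) : ℝ) / N) =
      ((N : ℂ) ^ 2)⁻¹ * ∑ r : Fin 2 → ZMod N, F (rv r) *
        ZMod.stdAddChar (dt j (md N k - r)) := by
    intro j
    unfold Fh
    rw [mul_assoc, Finset.sum_mul]
    congr 1
    refine Finset.sum_congr rfl fun r _ => ?_
    rw [mul_assoc]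
    congr 1
    rw [ee_eq_std, ee_eq_std, ← AddChar.map_add_eq_mul]
    congr 1
    push_cast
    rw [md_dt, md_dt, md_rv, md_rv]
    simp only [dt, Pi.sub_apply]
    ring
  simp_rw [h1]
  rw [← Finset.mul_sum, Finset.sum_comm]
  simp_rw [← Finset.mul_sum, sum_dt]
  rw [Finset.sum_eq_single (md N k)]
  · simp only [sub_self, if_true]
    rw [hF.congr (x := rv (md N k)) (y := k) (by rw [md_rv])]
    field_simp
  · intro r _ hr
    rw [if_neg, mul_zero]
    intro h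
    exact hr (sub_eq_zero.1 h).symm
  · intro h
    exact absurd (Finset.mem_univ _) h

/-- invariance under the sublattice forces vanishing of Fourier coefficients -/
lemma Fh_shift {N : ℕ} [NeZero N] {F : (Fin 2 → ℤ) → ℂ} (hN : PerM N F) (s : Fin 2 → ℤ)
    (hs : ∀ k, F (k + s) = F k) (j : Fin 2 → ZMod N) :
    Fh N F j = ee (((dt (rv j) s : ℤ) : ℝ) / N) * Fh N F j := by
  conv_lhs => rw [Fh]
  rw [Fh, mul_left_comm]
  congr 1
  rw [Finset.mul_sum]
  refine Eq.trans ?_ (Equiv.sum_comp (Equiv.addRight (md N s))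
    (fun r : Fin 2 → ZMod N => ee (((dt (rv j) s : ℤ) : ℝ) / N) *
      (F (rv r) * ee (((-dt (rv j) (rv r) : ℤ) : ℝ) / N))))
  refine Finset.sum_congr rfl fun r _ => ?_
  simp only [Equiv.coe_addRight]
  have h1 : F (rv (r + md N s)) = F (rv r) := by
    rw [← hs (rv r)]
    refine hN.congr ?_
    rw [md_rv, md_add, md_rv]
  rw [h1, mul_left_comm]
  congr 1
  rw [ee_eq_std, ee_eq_std, ee_eq_std, ← AddChar.map_add_eq_mul]
  congr 1
  push_cast
  rw [md_dt, md_dt, md_dt, md_rv, md_rv, md_rv]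
  simp only [dt, Pi.add_apply]
  ring

end

end Vale.Agent.P022.H23
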