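import Vale.Agent.P022.H23.ThetaMF

/-!
# P022: the theta series of `x² + y²`
-/

open Complex UpperHalfPlane ModularGroup CongruenceSubgroup Matrix.SpecialLinearGroup
open scoped Real MatrixGroups ModularForm NumberTheorySymbols
open Vale.Agent.P267.H775 (toR toR_apply)

namespace Vale.Agent.P022.H23

noncomputable section

lemma q_fin {Q : BQ} (hQ : Q.Pos) (n : ℕ) : {x : Fin 2 → ℤ | Q.q x = n}.Finite := by
  have H := ik_ker hQ
  have hs0 : Summable fun k : Fin 2 → ℤ => ik Q Complex.I (toR k) := by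
    have := H.sum Complex.I (by simp) 0
    simpa using this
  have h1 := finite_fiber (Q := Q) (fun k : Fin 2 → ℤ => toR k) hs0 (n : ℝ)
  refine h1.subset fun k hk => ?_
  simp only [Set.mem_ofPred_eq] at hk ⊢
  rw [Q.q_toR, hk]
  simp

/-- the form `x² + y²` -/
def g4 : BQ := ⟨1, 0, 1⟩

lemma g4_pos : g4.Pos := ⟨by norm_num [g4], by norm_num [g4, BQ.det]⟩

lemma g4_q (x : Fin 2 → ℤ) : g4.q x = x 0 ^ 2 + x 1 ^ 2 := by
  simp [g4, BQ.q]

/-- the number of representations as a sum of two squares is divisible by four -/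
lemma four_dvd {n : ℕ} (hn : n ≠ 0) (s : Finset (Fin 2 → ℤ))
    (hs : ∀ x, x ∈ s ↔ g4.q x = n) : ∃ k : ℕ, s.card = 4 * k := by
  classical
  set A := s.filter (fun x => 0 < x 0 ∧ 0 ≤ x 1) with hA
  set B := s.filter (fun x => x 0 ≤ 0 ∧ 0 < x 1) with hB
  set C := s.filter (fun x => x 0 < 0 ∧ x 1 ≤ 0) with hC
  set D := s.filter (fun x => 0 ≤ x 0 ∧ x 1 < 0) with hD
  have hrot : ∀ x : Fin 2 → ℤ, x ∈ s → (![-x 1, x 0] : Fin 2 → ℤ) ∈ s := by
    intro x hx
    rw [hs, g4_q] at hx ⊢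
    simp only [Matrix.cons_val_zero, Matrix.cons_val_one]
    rw [← hx]
    simp
    ring
  have hrot' : ∀ x : Fin 2 → ℤ, x ∈ s → (![x 1, -x 0] : Fin 2 → ℤ) ∈ s := by
    intro x hx
    rw [hs, g4_q] at hx ⊢
    simp only [Matrix.cons_val_zero, Matrix.cons_val_one]
    rw [← hx]
    simp
    ring
  have hinv : ∀ x : Fin 2 → ℤ, (![(![-x 1, x 0] : Fin 2 → ℤ) 1, -(![-x 1, x 0] : Fin 2 → ℤ) 0] :
      Fin 2 → ℤ) = x := by
    intro x
    funext i
    fin_cases i <;> simp
  have hinv' : ∀ x : Fin 2 → ℤ, (![-(![x 1, -x 0] : Fin 2 → ℤ) 1, (![x 1, -x 0] : Fin 2 → ℤ) 0] :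
      Fin 2 → ℤ) = x := by
    intro x
    funext i
    fin_cases i <;> simp
  have hAB : A.card = B.card := by
    refine Finset.card_bij' (fun x _ => ![-x 1, x 0]) (fun x _ => ![x 1, -x 0]) ?_ ?_
      (fun x _ => hinv x) (fun x _ => hinv' x)
    · intro x hx
      rw [hA, Finset.mem_filter] at hx
      rw [hB, Finset.mem_filter]
      refine ⟨hrot x hx.1, ?_, ?_⟩
      · simpa using hx.2.2
      · simpa using hx.2.1
    · intro x hx
      rw [hB, Finset.mem_filter] at hx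
      rw [hA, Finset.mem_filter]
      refine ⟨hrot' x hx.1, ?_, ?_⟩
      · simpa using hx.2.2
      · simpa using hx.2.1
  have hBC : B.card = C.card := by
    refine Finset.card_bij' (fun x _ => ![-x 1, x 0]) (fun x _ => ![x 1, -x 0]) ?_ ?_
      (fun x _ => hinv x) (fun x _ => hinv' x)
    · intro x hx
      rw [hB, Finset.mem_filter] at hx
      rw [hC, Finset.mem_filter]
      refine ⟨hrot x hx.1, ?_, ?_⟩
      · simpa using hx.2.2
      · simpa using hx.2.1
    · intro x hx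
      rw [hC, Finset.mem_filter] at hx
      rw [hB, Finset.mem_filter]
      refine ⟨hrot' x hx.1, ?_, ?_⟩
      · simpa using hx.2.2
      · simpa using hx.2.1
  have hCD : C.card = D.card := by
    refine Finset.card_bij' (fun x _ => ![-x 1, x 0]) (fun x _ => ![x 1, -x 0]) ?_ ?_
      (fun x _ => hinv x) (fun x _ => hinv' x)
    · intro x hx
      rw [hC, Finset.mem_filter] at hx
      rw [hD, Finset.mem_filter]
      refine ⟨hrot x hx.1, ?_, ?_⟩
      · simpa using hx.2.2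
      · simpa using hx.2.1
    · intro x hx
      rw [hD, Finset.mem_filter] at hx
      rw [hC, Finset.mem_filter]
      refine ⟨hrot' x hx.1, ?_, ?_⟩
      · simpa using hx.2.2
      · simpa using hx.2.1
  have hsum : s.card = A.card + B.card + C.card + D.card := by
    rw [hA, hB, hC, hD, Finset.card_filter, Finset.card_filter, Finset.card_filter,
      Finset.card_filter, ← Finset.sum_add_distrib, ← Finset.sum_add_distrib,
      ← Finset.sum_add_distrib, Finset.card_eq_sum_ones]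
    refine Finset.sum_congr rfl fun x hx => ?_
    have hx0 : ¬ (x 0 = 0 ∧ x 1 = 0) := by
      rintro ⟨h0, h1⟩
      rw [hs, g4_q, h0, h1] at hx
      apply hn
      have : (n : ℤ) = 0 := by rw [← hx]; norm_num
      exact_mod_cast this
    split_ifs <;> omega
  exact ⟨A.card, by omega⟩

/-- `r₂(n)` as a sum -/
lemma r2_eq {n : ℕ} : ∑ᶠ x ∈ {x : Fin 2 → ℤ | g4.q x = n}, (1 : ℂ) =
    ((q_fin g4_pos n).toFinset.card : ℂ) := by
  rw [finsum_mem_eq_finite_toFinset_sum _ (q_fin g4_pos n), Finset.sum_const, nsmul_eq_mul, mul_one]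

lemma r2_zero : (q_fin g4_pos 0).toFinset.card = 1 := by
  rw [Finset.card_eq_one]
  refine ⟨0, ?_⟩
  ext x
  rw [Set.Finite.mem_toFinset, Finset.mem_singleton, Set.mem_ofPred_eq, g4_q]
  constructor
  · intro h
    have h0 : x 0 = 0 := by
      have : x 0 ^ 2 = 0 := by
        have := sq_nonneg (x 0)
        have := sq_nonneg (x 1)
        push_cast at h
        omega
      exact pow_eq_zero_iff (two_ne_zero) |>.1 this
    have h1 : x 1 = 0 := by
      have : x 1 ^ 2 = 0 := by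
        have := sq_nonneg (x 0)
        have := sq_nonneg (x 1)
        push_cast at h
        omega
      exact pow_eq_zero_iff (two_ne_zero) |>.1 this
    funext i
    fin_cases i
    · exact h0
    · exact h1
  · rintro rfl
    simp

/-- the theta series of `x² + y²` -/
def E4 : ℍ → ℂ := TfH (ik g4) (fun _ => 1)

lemma E4_per : PerM 1 (fun _ : Fin 2 → ℤ => (1 : ℂ)) := fun _ _ => rfl

lemma E4_level : 4 * g4.det.natAbs * 1 ^ 2 = 16 := by
  norm_num [g4, BQ.det]

lemma E4_mf : ∃ g : MF 16 1, (g : ℍ → ℂ) = E4 ∧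
      HasQ g (fun n => ∑ᶠ x ∈ {x : Fin 2 → ℤ | g4.q x = n}, (1 : ℂ)) ∧
      (∀ γ ∈ Gamma0 16, ∀ d : ℕ, γ 1 1 = d →
        (g : ℍ → ℂ) ∣[(1 : ℤ)] γ = (J(-4 | d) : ℂ) • (g : ℍ → ℂ)) ∧
      ∀ v : AbsoluteValue ℂ ℝ, (∀ x y : ℂ, v (x + y) ≤ max (v x) (v y)) → VBdd v 1 g := by
  have h := theta_MF g4_pos one_pos E4_per
  rw [E4_level] at h
  obtain ⟨g, h1, h2, h3, h4⟩ := h
  refine ⟨g, h1, h2, fun γ hγ d hd => ?_, h4⟩
  have h5 := h3 γ hγ d hd 1 (fun x => by rw [one_mul])
  rw [mul_one] at h5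
  have h6 : -g4.det = -4 := by norm_num [g4, BQ.det]
  rw [h6] at h5
  exact h5

end

end Vale.Agent.P022.H23
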