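import Vale.Agent.P022.H23.Ker
import Mathlib.NumberTheory.LegendreSymbol.QuadraticChar.GaussSum
import Mathlib.NumberTheory.LegendreSymbol.Basic
import Mathlib.NumberTheory.LegendreSymbol.AddCharacter

/-!
# P022, package W: the Gauss sum of a binary quadratic form modulo a prime
-/

open Complex Finset
open scoped Real

namespace Vale.Agent.P022.H23

noncomputable section

section

variable {p : ℕ} [Fact p.Prime]

/-- the quadratic character with complex values -/
def qc (p : ℕ) [Fact p.Prime] : MulChar (ZMod p) ℂ :=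
  (quadraticChar (ZMod p)).ringHomComp (Int.castRingHom ℂ)

lemma qc_apply (x : ZMod p) : qc p x = ((quadraticChar (ZMod p) x : ℤ) : ℂ) := rfl

lemma qc_ne_one (hp : p ≠ 2) : qc p ≠ 1 := by
  rw [qc, MulChar.ringHomComp_ne_one_iff Int.cast_injective]
  exact quadraticChar_ne_one (by rwa [ZMod.ringChar_zmod_n])

lemma qc_quad : (qc p).IsQuadratic :=
  MulChar.IsQuadratic.comp (quadraticChar_isQuadratic (ZMod p)) (Int.castRingHom ℂ)

lemma qc_sq {x : ZMod p} (hx : x ≠ 0) : qc p (x ^ 2) = 1 := by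
  rw [qc_apply, quadraticChar_sq_one' hx, Int.cast_one]

lemma sum_sq (hp : p ≠ 2) {ψ : AddChar (ZMod p) ℂ} (hψ : ψ.IsPrimitive) {t : ZMod p}
    (ht : t ≠ 0) : ∑ x : ZMod p, ψ (t * x ^ 2) = qc p t * gaussSum (qc p) ψ := by
  have h1 : ∑ x : ZMod p, ψ (t * x ^ 2) =
      ∑ a : ZMod p, ∑ x ∈ univ.filter (fun x : ZMod p => x ^ 2 = a), ψ (t * a) := by
    rw [← Finset.sum_fiberwise (s := univ) (g := fun x : ZMod p => x ^ 2)]
    refine Finset.sum_congr rfl fun a _ => ?_
    refine Finset.sum_congr rfl fun x hx => ?_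
    rw [(Finset.mem_filter.1 hx).2]
  have hc : ∀ a : ZMod p, ((univ.filter (fun x : ZMod p => x ^ 2 = a)).card : ℂ) =
      qc p a + 1 := by
    intro a
    have h := quadraticChar_card_sqrts (F := ZMod p) (by rwa [ZMod.ringChar_zmod_n]) a
    rw [qc_apply]
    have h2 : (univ.filter (fun x : ZMod p => x ^ 2 = a)) = {x : ZMod p | x ^ 2 = a}.toFinset := by
      ext x; simp
    rw [h2]
    exact_mod_cast h
  rw [h1]
  simp_rw [Finset.sum_const, nsmul_eq_mul, hc, add_mul, one_mul]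
  rw [Finset.sum_add_distrib]
  have h3 : ∑ a : ZMod p, ψ (t * a) = 0 := by
    have := AddChar.sum_mulShift (R := ZMod p) t hψ
    simpa [ht, mul_comm] using this
  rw [h3, add_zero]
  have h4 := gaussSum_mulShift (qc p) ψ (Units.mk0 t ht)
  rw [Units.val_mk0] at h4
  have h5 : (qc p) t * (qc p) t = 1 := by
    rw [← map_mul, ← sq, qc_sq ht]
  have h6 : gaussSum (qc p) (AddChar.mulShift ψ t) = ∑ a : ZMod p, qc p a * ψ (t * a) := by
    rw [gaussSum]
    exact Finset.sum_congr rfl fun a _ => by rw [AddChar.mulShift_apply]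
  rw [← h6, ← h4, ← mul_assoc, h5, one_mul]

/-- the Gauss sum of a binary form -/
def GS (Q : BQ) (d : ℕ) [NeZero d] (u : ZMod d) : ℂ :=
  ∑ r : Fin 2 → ZMod d, ZMod.stdAddChar (u * Q.q r)

theorem GS_prime (hp : p ≠ 2) (Q : BQ) (hD : ((Q.det : ℤ) : ZMod p) ≠ 0) {u : ZMod p}
    (hu : u ≠ 0) : GS Q p u = p * qc p ((-Q.det : ℤ) : ZMod p) := by
  classical
  set ψ : AddChar (ZMod p) ℂ := ZMod.stdAddChar with hψd
  have hψ : ψ.IsPrimitive := ZMod.isPrimitive_stdAddChar p
  have h2 : (2 : ZMod p) ≠ 0 := by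
    intro h
    apply hp
    have h' : ((2 : ℕ) : ZMod p) = 0 := by exact_mod_cast h
    rw [ZMod.natCast_eq_zero_iff] at h'
    exact (Nat.prime_dvd_prime_iff_eq Fact.out Nat.prime_two).1 h'
  have hg : gaussSum (qc p) ψ * gaussSum (qc p) ψ = qc p (-1) * p := by
    have h := gaussSum_sq (χ := qc p) (qc_ne_one hp) (qc_quad (p := p)) hψ
    rw [ZMod.card] at h
    rw [← h, sq]
  have hsplit : GS Q p u = ∑ y : ZMod p, ∑ x : ZMod p,
      ψ (u * (Q.a * x ^ 2 + Q.b * x * y + Q.c * y ^ 2)) := by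
    unfold GS
    rw [← (finTwoArrowEquiv (ZMod p)).symm.sum_comp, Fintype.sum_prod_type_right]
    refine Finset.sum_congr rfl fun y _ => Finset.sum_congr rfl fun x _ => ?_
    rfl
  rw [hsplit]
  by_cases ha : ((Q.a : ℤ) : ZMod p) = 0
  · -- degenerate leading coefficient
    have hdet : ((Q.det : ℤ) : ZMod p) = -((Q.b : ℤ) : ZMod p) ^ 2 := by
      simp only [BQ.det]; push_cast; rw [ha]; ring
    have hb : ((Q.b : ℤ) : ZMod p) ≠ 0 := by
      intro hb; apply hD; rw [hdet, hb]; ring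
    have h1 : ∀ y : ZMod p, ∑ x : ZMod p, ψ (u * (Q.a * x ^ 2 + Q.b * x * y + Q.c * y ^ 2)) =
        if y = 0 then (p : ℂ) else 0 := by
      intro y
      have h3 : ∀ x : ZMod p, ψ (u * (Q.a * x ^ 2 + Q.b * x * y + Q.c * y ^ 2)) =
          ψ (u * Q.c * y ^ 2) * ψ (x * (u * Q.b * y)) := by
        intro x
        rw [← AddChar.map_add_eq_mul, ha]
        congr 1
        ring
      simp_rw [h3, ← Finset.mul_sum]
      have h4 := AddChar.sum_mulShift (R := ZMod p) (u * Q.b * y) hψ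
      rw [h4]
      by_cases hy : y = 0
      · simp [hy]
      · simp [hy, hu, hb]
    simp_rw [h1]
    rw [Finset.sum_ite_eq']
    simp only [Finset.mem_univ, if_true]
    have h5 : ((-Q.det : ℤ) : ZMod p) = ((Q.b : ℤ) : ZMod p) ^ 2 := by
      push_cast; rw [hdet]; ring
    rw [h5, qc_sq hb, mul_one]
  · have h4 : (4 : ZMod p) ≠ 0 := by
      have : (4 : ZMod p) = 2 * 2 := by norm_num
      rw [this]
      exact mul_ne_zero h2 h2
    have h4a : (4 * Q.a : ZMod p) ≠ 0 := mul_ne_zero h4 ha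
    have h1 : ∀ y : ZMod p, ∑ x : ZMod p, ψ (u * (Q.a * x ^ 2 + Q.b * x * y + Q.c * y ^ 2)) =
        ψ (u * (Q.det / (4 * Q.a)) * y ^ 2) * (qc p (u * Q.a) * gaussSum (qc p) ψ) := by
      intro y
      rw [← sum_sq hp hψ (mul_ne_zero hu ha), Finset.mul_sum]
      refine Eq.trans ?_ (Equiv.sum_comp (Equiv.addRight (Q.b * y / (2 * Q.a) : ZMod p))
        (fun x => ψ (u * (Q.det / (4 * Q.a)) * y ^ 2) * ψ (u * Q.a * x ^ 2)))
      refine Finset.sum_congr rfl fun x _ => ?_
      rw [← AddChar.map_add_eq_mul]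
      congr 1
      simp only [Equiv.coe_addRight, BQ.det]
      push_cast
      field_simp
      ring
    simp_rw [h1, ← Finset.sum_mul]
    have hu2 : u * (Q.det / (4 * Q.a)) ≠ 0 := mul_ne_zero hu (div_ne_zero hD h4a)
    rw [sum_sq hp hψ hu2]
    have h6 : qc p (u * (Q.det / (4 * Q.a))) * gaussSum (qc p) ψ *
        (qc p (u * Q.a) * gaussSum (qc p) ψ) =
        qc p (u * (Q.det / (4 * Q.a)) * (u * Q.a)) *
          (gaussSum (qc p) ψ * gaussSum (qc p) ψ) := by
      rw [map_mul (qc p) (u * (Q.det / (4 * Q.a))) (u * Q.a)]; ring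
    rw [h6, hg, ← mul_assoc, ← map_mul, mul_comm]
    congr 1
    have h7 : u * (Q.det / (4 * Q.a)) * (u * Q.a) * -1 =
        ((-Q.det : ℤ) : ZMod p) * (u / 2) ^ 2 := by
      push_cast
      field_simp
      ring
    rw [h7, map_mul, qc_sq (div_ne_zero hu h2), mul_one]

end

end

end Vale.Agent.P022.H23
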