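import Vale.Agent.P022.H23.Ker

/-!
# P022, package W: the kernel of a positive definite binary form
-/

open Complex Matrix MeasureTheory
open scoped Real
open Vale.Agent.P267.H775 (toR toR_apply chr qf gau gau_apply locSum_gau integrable_gau fc_gau
  poisson fc LocSum)

namespace Vale.Agent.P022.H23

noncomputable section

/-- a square root of the Gram matrix -/
def pm (Q : BQ) : Matrix (Fin 2) (Fin 2) ℝ :=
  !![√(2 * Q.a), Q.b / √(2 * Q.a); 0, √(Q.det / (2 * Q.a))]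

/-- positive definite -/
structure BQ.Pos (Q : BQ) : Prop where
  ha : 0 < Q.a
  hD : 0 < Q.det

variable {Q : BQ}

lemma pm_det (hQ : Q.Pos) : (pm Q).det = √Q.det := by
  have ha : (0 : ℝ) < 2 * Q.a := by have := hQ.ha; positivity
  have ha' : (Q.a : ℝ) ≠ 0 := by have := hQ.ha; positivity
  rw [pm, Matrix.det_fin_two_of, mul_zero, sub_zero, ← Real.sqrt_mul ha.le]
  congr 1
  field_simp

lemma pm_det_ne (hQ : Q.Pos) : (pm Q).det ≠ 0 := by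
  rw [pm_det hQ]
  have hD : (0 : ℝ) < Q.det := by exact_mod_cast hQ.hD
  exact (Real.sqrt_pos.2 hD).ne'

lemma pm_zero (x : Fin 2 → ℝ) :
    (pm Q *ᵥ x) 0 = √(2 * Q.a) * x 0 + Q.b / √(2 * Q.a) * x 1 := by
  simp [pm, Matrix.mulVec, dotProduct, Fin.sum_univ_two]

lemma pm_one (x : Fin 2 → ℝ) : (pm Q *ᵥ x) 1 = √(Q.det / (2 * Q.a)) * x 1 := by
  simp [pm, Matrix.mulVec, dotProduct, Fin.sum_univ_two]

lemma qf_pm (hQ : Q.Pos) (x : Fin 2 → ℝ) : qf (pm Q) x = 2 * Q.q x := by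
  have ha : (0 : ℝ) < 2 * Q.a := by have := hQ.ha; positivity
  have hD : (0 : ℝ) < Q.det := by exact_mod_cast hQ.hD
  have h1 : √(2 * (Q.a : ℝ)) ^ 2 = 2 * Q.a := Real.sq_sqrt ha.le
  have h0 : √(2 * (Q.a : ℝ)) ≠ 0 := (Real.sqrt_pos.2 ha).ne'
  have h2 : √((Q.det : ℝ) / (2 * Q.a)) ^ 2 = Q.det / (2 * Q.a) := Real.sq_sqrt (by positivity)
  unfold qf
  rw [Fin.sum_univ_two, pm_zero, pm_one, mul_pow, h2]
  have h3 : (√(2 * (Q.a : ℝ)) * x 0 + Q.b / √(2 * Q.a) * x 1) ^ 2 =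
      √(2 * (Q.a : ℝ)) ^ 2 * x 0 ^ 2 + 2 * Q.b * x 0 * x 1 +
        Q.b ^ 2 / √(2 * (Q.a : ℝ)) ^ 2 * x 1 ^ 2 := by
    field_simp
    ring
  rw [h3, h1]
  have ha' : (Q.a : ℝ) ≠ 0 := by have := hQ.ha; positivity
  unfold BQ.q BQ.det
  push_cast
  field_simp
  ring

lemma pm_dr (hQ : Q.Pos) (k : Fin 2 → ℤ) : ((pm Q)⁻¹)ᵀ *ᵥ toR k = pm Q *ᵥ Q.dr k := by
  have ha : (0 : ℝ) < 2 * Q.a := by have := hQ.ha; positivity
  have hD : (0 : ℝ) < Q.det := by exact_mod_cast hQ.hD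
  have h1 : √(2 * (Q.a : ℝ)) ^ 2 = 2 * Q.a := Real.sq_sqrt ha.le
  have h0 : √(2 * (Q.a : ℝ)) ≠ 0 := (Real.sqrt_pos.2 ha).ne'
  have h2 : √((Q.det : ℝ) / (2 * Q.a)) ^ 2 = Q.det / (2 * Q.a) := Real.sq_sqrt (by positivity)
  have ha' : (Q.a : ℝ) ≠ 0 := by have := hQ.ha; positivity
  have hdr0 : (Q.dr k) 0 = (Q.det : ℝ)⁻¹ * (2 * Q.c * k 0 - Q.b * k 1) := by
    simp [BQ.dr, BQ.dl]
  have hdr1 : (Q.dr k) 1 = (Q.det : ℝ)⁻¹ * (-Q.b * k 0 + 2 * Q.a * k 1) := by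
    simp [BQ.dr, BQ.dl]
  have hdet : (Q.det : ℝ) = 4 * Q.a * Q.c - Q.b ^ 2 := by unfold BQ.det; push_cast; ring
  have key : toR k = (pm Q)ᵀ *ᵥ (pm Q *ᵥ Q.dr k) := by
    have e0 : ((pm Q)ᵀ *ᵥ (pm Q *ᵥ Q.dr k)) 0 = √(2 * Q.a) * (pm Q *ᵥ Q.dr k) 0 := by
      conv_lhs => rw [Matrix.mulVec, dotProduct, Fin.sum_univ_two]
      simp [pm]
    have e1 : ((pm Q)ᵀ *ᵥ (pm Q *ᵥ Q.dr k)) 1 = Q.b / √(2 * Q.a) * (pm Q *ᵥ Q.dr k) 0 +
        √(Q.det / (2 * Q.a)) * (pm Q *ᵥ Q.dr k) 1 := by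
      conv_lhs => rw [Matrix.mulVec, dotProduct, Fin.sum_univ_two]
      simp [pm]
    funext i
    fin_cases i
    · change toR k 0 = ((pm Q)ᵀ *ᵥ (pm Q *ᵥ Q.dr k)) 0
      rw [e0, pm_zero]
      have e2 : √(2 * (Q.a : ℝ)) * (√(2 * Q.a) * Q.dr k 0 + Q.b / √(2 * Q.a) * Q.dr k 1) =
          √(2 * (Q.a : ℝ)) ^ 2 * Q.dr k 0 + Q.b * Q.dr k 1 := by
        field_simp
      rw [e2, h1, hdr0, hdr1, toR_apply]
      field_simp
      rw [hdet]
      ring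
    · change toR k 1 = ((pm Q)ᵀ *ᵥ (pm Q *ᵥ Q.dr k)) 1
      rw [e1, pm_zero, pm_one]
      have e2 : (Q.b : ℝ) / √(2 * (Q.a : ℝ)) * (√(2 * Q.a) * Q.dr k 0 + Q.b / √(2 * Q.a) * Q.dr k 1) +
          √(Q.det / (2 * Q.a)) * (√(Q.det / (2 * Q.a)) * Q.dr k 1) =
          Q.b * Q.dr k 0 + Q.b ^ 2 / √(2 * (Q.a : ℝ)) ^ 2 * Q.dr k 1 +
            √((Q.det : ℝ) / (2 * Q.a)) ^ 2 * Q.dr k 1 := by
        field_simp
      rw [e2, h1, h2, hdr0, hdr1, toR_apply]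
      field_simp
      rw [hdet]
      ring
  rw [key, mulVec_mulVec, ← Matrix.transpose_mul,
    mul_nonsing_inv _ (isUnit_iff_ne_zero.2 (pm_det_ne hQ)), Matrix.transpose_one, one_mulVec]

/-- the kernel `e(z Q(x))` -/
def ik (Q : BQ) : ℂ → (Fin 2 → ℝ) → ℂ := fun z x => cexp (2 * π * I * z * (Q.q x : ℝ))

lemma ik_eq (hQ : Q.Pos) (z : ℂ) (x : Fin 2 → ℝ) : ik Q z x = gau (pm Q) z x := by
  rw [gau_apply, qf_pm hQ, ik]
  congr 1
  push_cast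
  ring

/-- W1: the imaginary quadratic kernel -/
theorem ik_ker (hQ : Q.Pos) : Ker Q (ik Q) (I / (√Q.det : ℝ)) where
  add z hz r x := by
    unfold ik ee
    rw [← Complex.exp_add]
    congr 1
    push_cast
    ring
  scale z hz d hd x := by
    unfold ik
    rw [Q.q_smul]
    congr 1
    push_cast
    ring
  sum z hz x := by
    simp_rw [ik_eq hQ]
    exact (locSum_gau (pm Q) (pm_det_ne hQ) hz).summable x
  pois z hz x := by
    have hD : (0 : ℝ) < Q.det := by exact_mod_cast hQ.hD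
    have hz0 : z ≠ 0 := by rintro rfl; simp at hz
    have hM := pm_det_ne hQ
    have hfc : ∀ k : Fin 2 → ℤ, fc (gau (pm Q) z) k = I / (√Q.det : ℝ) / z * ik Q (-1 / z) (Q.dr k) := by
      intro k
      rw [fc_gau (pm Q) hM hz k, pm_det hQ, abs_of_pos (Real.sqrt_pos.2 hD)]
      have e1 : qf ((pm Q)⁻¹)ᵀ (toR k) = 2 * Q.q (Q.dr k) := by
        rw [← qf_pm hQ]
        unfold qf
        rw [pm_dr hQ]
      rw [e1]
      have e2 : ((Fintype.card (Fin 2) : ℂ) / 2) = 1 := by simp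
      rw [e2, Complex.cpow_one]
      unfold ik
      have e3 : (π * I * (-1 / z) * ((2 * Q.q (Q.dr k) : ℝ) : ℂ)) =
          2 * π * I * (-1 / z) * ((Q.q (Q.dr k) : ℝ) : ℂ) := by
        push_cast; ring
      rw [e3]
      push_cast
      ring
    have hs : Summable (fc (gau (pm Q) z : (Fin 2 → ℝ) → ℂ)) := by
      have hM2 : (((pm Q)⁻¹)ᵀ).det ≠ 0 := by
        rw [Matrix.det_transpose, Matrix.det_nonsing_inv, Ring.inverse_eq_inv']
        exact inv_ne_zero hM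
      have h1 := (locSum_gau ((pm Q)⁻¹)ᵀ hM2 (im_neg_inv hz)).summable 0
      have h2 : ∀ k : Fin 2 → ℤ, fc (gau (pm Q) z) k =
          I / (√Q.det : ℝ) / z * gau ((pm Q)⁻¹)ᵀ (-1 / z) (0 + toR k) := by
        intro k
        rw [hfc, ik_eq hQ, gau_apply, gau_apply, zero_add]
        congr 3
        unfold qf
        rw [pm_dr hQ]
      refine (h1.mul_left (I / (√Q.det : ℝ) / z)).congr fun k => (h2 k).symm
    have h := poisson (gau (pm Q) z) (locSum_gau (pm Q) hM hz) (integrable_gau (pm Q) hM hz) hs x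
    simp_rw [ik_eq hQ z]
    rw [← h.tsum_eq, ← tsum_mul_left]
    refine tsum_congr fun k => ?_
    rw [hfc]
    ring

end

end Vale.Agent.P022.H23
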