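import Vale.Agent.P267.H775.Gauss
import Mathlib.Analysis.SpecialFunctions.Complex.CircleAddChar
import Mathlib.NumberTheory.GaussSum
import Mathlib.Data.ZMod.Basic

/-!
# P022, package W: theta kernels of binary quadratic forms (abstract form)

`Q = (a, b, c)` an integral binary quadratic form, `φ z` a family of functions on `ℝ²` with the
formal properties of `x ↦ e(z Q(x))`.
-/

open Complex
open scoped Real
open Vale.Agent.P267.H775 (toR toR_apply chr)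

namespace Vale.Agent.P022.H23

noncomputable section

/-- `e(x) = exp(2πix)` -/
def ee (x : ℝ) : ℂ := cexp (2 * π * I * x)

lemma ee_add (x y : ℝ) : ee (x + y) = ee x * ee y := by
  unfold ee
  rw [← Complex.exp_add]
  congr 1
  push_cast
  ring

@[simp] lemma ee_zero : ee 0 = 1 := by simp [ee]

@[simp] lemma ee_int (n : ℤ) : ee n = 1 := by
  unfold ee
  rw [Complex.exp_eq_one_iff]
  exact ⟨n, by push_cast; ring⟩

lemma ee_add_int (x : ℝ) (n : ℤ) : ee (x + n) = ee x := by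
  rw [ee_add, ee_int, mul_one]

lemma ee_ne_zero (x : ℝ) : ee x ≠ 0 := Complex.exp_ne_zero _

lemma norm_ee (x : ℝ) : ‖ee x‖ = 1 := by
  unfold ee
  rw [show (2 * π * I * x : ℂ) = ((2 * π * x : ℝ) : ℂ) * I by push_cast; ring]
  exact Complex.norm_exp_ofReal_mul_I _

lemma stdAddChar_eq {d : ℕ} [NeZero d] (j : ℤ) :
    ZMod.stdAddChar ((j : ℤ) : ZMod d) = ee ((j : ℝ) / d) := by
  rw [ZMod.stdAddChar_coe]
  unfold ee
  congr 1
  push_cast
  ring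

/-- an integral binary quadratic form -/
structure BQ where
  a : ℤ
  b : ℤ
  c : ℤ

namespace BQ

variable (Q : BQ)

/-- values over a commutative ring -/
def q {R : Type*} [CommRing R] (x : Fin 2 → R) : R :=
  Q.a * x 0 ^ 2 + Q.b * x 0 * x 1 + Q.c * x 1 ^ 2

/-- the bilinear form -/
def B {R : Type*} [CommRing R] (x y : Fin 2 → R) : R :=
  2 * Q.a * x 0 * y 0 + Q.b * (x 0 * y 1 + x 1 * y 0) + 2 * Q.c * x 1 * y 1

/-- the determinant `4ac - b²` of the Gram matrix -/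
def det : ℤ := 4 * Q.a * Q.c - Q.b ^ 2

/-- adjoint of the Gram matrix -/
def dl (k : Fin 2 → ℤ) : Fin 2 → ℤ := ![2 * Q.c * k 0 - Q.b * k 1, -Q.b * k 0 + 2 * Q.a * k 1]

/-- the adjoint form -/
def qd (k : Fin 2 → ℤ) : ℤ := Q.c * k 0 ^ 2 - Q.b * k 0 * k 1 + Q.a * k 1 ^ 2

/-- inverse of the Gram matrix -/
def dr (k : Fin 2 → ℤ) : Fin 2 → ℝ := ((Q.det : ℝ)⁻¹) • toR (Q.dl k)

lemma q_add {R : Type*} [CommRing R] (x y : Fin 2 → R) :
    Q.q (x + y) = Q.q x + Q.q y + Q.B x y := by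
  simp only [q, B, Pi.add_apply]; ring

lemma q_smul {R : Type*} [CommRing R] (t : R) (x : Fin 2 → R) : Q.q (t • x) = t ^ 2 * Q.q x := by
  simp only [q, Pi.smul_apply, smul_eq_mul]; ring

lemma q_toR (x : Fin 2 → ℤ) : Q.q (toR x) = ((Q.q x : ℤ) : ℝ) := by
  simp [q]

lemma q_cast {R : Type*} [CommRing R] (x : Fin 2 → ℤ) :
    Q.q (fun i => (x i : R)) = ((Q.q x : ℤ) : R) := by
  simp [q]

lemma q_dl (k : Fin 2 → ℤ) : Q.q (Q.dl k) = Q.det * Q.qd k := by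
  simp only [q, dl, det, qd, Matrix.cons_val_zero, Matrix.cons_val_one]; simp; ring

lemma B_dl (x k : Fin 2 → ℤ) : Q.B x (Q.dl k) = Q.det * (k 0 * x 0 + k 1 * x 1) := by
  simp only [B, dl, det, Matrix.cons_val_zero, Matrix.cons_val_one]; simp; ring

lemma q_dr (hQ : Q.det ≠ 0) (k : Fin 2 → ℤ) : Q.q (Q.dr k) = (Q.qd k : ℝ) / Q.det := by
  have h : (Q.det : ℝ) ≠ 0 := by exact_mod_cast hQ
  rw [dr, q_smul, q_toR, q_dl]
  push_cast
  field_simp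

end BQ

/-- the abstract properties of the functions `x ↦ e(z Q(x))` -/
structure Ker (Q : BQ) (φ : ℂ → (Fin 2 → ℝ) → ℂ) (C : ℂ) : Prop where
  add : ∀ z : ℂ, 0 < z.im → ∀ (r : ℝ) (x : Fin 2 → ℝ), φ (z + r) x = ee (r * Q.q x) * φ z x
  scale : ∀ z : ℂ, 0 < z.im → ∀ d : ℝ, 0 < d → ∀ x, φ ((d : ℂ) ^ 2 * z) x = φ z (d • x)
  sum : ∀ z : ℂ, 0 < z.im → ∀ x, Summable fun n : Fin 2 → ℤ => φ z (x + toR n)
  pois : ∀ z : ℂ, 0 < z.im → ∀ x, ∑' n : Fin 2 → ℤ, φ z (x + toR n) =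
    C / z * ∑' k : Fin 2 → ℤ, chr k x * φ (-1 / z) (Q.dr k)

/-- the theta series of a coset `h + M ℤ²` -/
def Th (φ : ℂ → (Fin 2 → ℝ) → ℂ) (M : ℕ) (h : Fin 2 → ℤ) (z : ℂ) : ℂ :=
  ∑' n : Fin 2 → ℤ, φ z (toR (h + (M : ℤ) • n))

lemma im_neg_inv {z : ℂ} (hz : 0 < z.im) : 0 < (-1 / z : ℂ).im := by
  have hz0 : z ≠ 0 := by rintro rfl; simp at hz
  rw [neg_div, one_div, neg_im, inv_im, neg_div, neg_neg]
  exact div_pos hz (normSq_pos.2 hz0)

namespace Ker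

variable {Q : BQ} {φ : ℂ → (Fin 2 → ℝ) → ℂ} {C : ℂ} (H : Ker Q φ C)

include H

lemma summable_M {z : ℂ} (hz : 0 < z.im) {M : ℕ} (hM : 0 < M) (w : Fin 2 → ℤ) :
    Summable fun n : Fin 2 → ℤ => φ z (toR (w + (M : ℤ) • n)) := by
  have hM' : (0 : ℝ) < M := by exact_mod_cast hM
  have hz2 : 0 < ((M : ℝ) ^ 2 * z : ℂ).im := by
    rw [show ((M : ℝ) ^ 2 * z : ℂ) = (((M : ℝ) ^ 2 : ℝ) : ℂ) * z by push_cast; ring,
      Complex.im_ofReal_mul]
    positivity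
  have h := H.sum _ hz2 ((M : ℝ)⁻¹ • toR w)
  refine h.congr fun n => ?_
  rw [H.scale z hz M hM']
  congr 1
  funext i
  simp only [Pi.smul_apply, Pi.add_apply, toR_apply, smul_eq_mul, Int.cast_add, Int.cast_mul,
    Int.cast_natCast]
  field_simp

/-- Poisson summation on `w + M ℤ²` -/
lemma pois_M {z : ℂ} (hz : 0 < z.im) {M : ℕ} (hM : 0 < M) (w : Fin 2 → ℤ) :
    ∑' n : Fin 2 → ℤ, φ z (toR (w + (M : ℤ) • n)) = C / ((M : ℂ) ^ 2 * z) *
      ∑' k : Fin 2 → ℤ, ee (((k 0 * w 0 + k 1 * w 1 : ℤ) : ℝ) / M) *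
        φ (-1 / z) ((M : ℝ)⁻¹ • Q.dr k) := by
  have hM' : (0 : ℝ) < M := by exact_mod_cast hM
  have hMc : (M : ℂ) ≠ 0 := by exact_mod_cast hM.ne'
  have hz0 : z ≠ 0 := by rintro rfl; simp at hz
  have hz2 : 0 < ((M : ℝ) ^ 2 * z : ℂ).im := by
    rw [show ((M : ℝ) ^ 2 * z : ℂ) = (((M : ℝ) ^ 2 : ℝ) : ℂ) * z by push_cast; ring,
      Complex.im_ofReal_mul]
    positivity
  have h := H.pois _ hz2 ((M : ℝ)⁻¹ • toR w)
  have h1 : ∀ n : Fin 2 → ℤ, φ ((M : ℝ) ^ 2 * z : ℂ) ((M : ℝ)⁻¹ • toR w + toR n) =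
      φ z (toR (w + (M : ℤ) • n)) := by
    intro n
    rw [H.scale z hz M hM']
    congr 1
    funext i
    simp only [Pi.smul_apply, Pi.add_apply, toR_apply, smul_eq_mul, Int.cast_add, Int.cast_mul,
      Int.cast_natCast]
    field_simp
  simp_rw [h1] at h
  rw [h]
  have h2 : ((M : ℝ) : ℂ) = (M : ℂ) := by push_cast; rfl
  rw [h2]
  congr 1
  refine tsum_congr fun k => ?_
  congr 1
  · unfold chr ee
    congr 1
    simp only [Fin.sum_univ_two, Pi.smul_apply, toR_apply, smul_eq_mul]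
    push_cast
    field_simp
  · have h3 := H.scale (-1 / z) (im_neg_inv hz) (M : ℝ)⁻¹ (by positivity) (Q.dr k)
    rw [← h3]
    congr 1
    push_cast
    field_simp

end Ker

end

end Vale.Agent.P022.H23
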