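import Vale.Agent.P022.H23.Cusp2
import Mathlib.NumberTheory.ModularForms.CongruenceSubgroups

/-!
# P022, package W: slash form of the transformation formulas
-/

open Complex Finset UpperHalfPlane ModularGroup CongruenceSubgroup
open scoped Real MatrixGroups ModularForm NumberTheorySymbols
open Vale.Agent.P267.H775 (toR toR_apply chr)

namespace Vale.Agent.P022.H23

noncomputable section

/-- the theta series as a function on the upper half plane -/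
def TfH (φ : ℂ → (Fin 2 → ℝ) → ℂ) (f : (Fin 2 → ℤ) → ℂ) : ℍ → ℂ := fun τ => Tf φ f (τ : ℂ)

variable {Q : BQ} {φ : ℂ → (Fin 2 → ℝ) → ℂ} {C : ℂ}

lemma gamma0_dvd {N : ℕ} {γ : SL(2, ℤ)} (hγ : γ ∈ Gamma0 N) : (N : ℤ) ∣ γ 1 0 := by
  rw [Gamma0_mem] at hγ
  exact (ZMod.intCast_zmod_eq_zero_iff_dvd _ _).1 hγ

lemma sl_det (γ : SL(2, ℤ)) : γ 0 0 * γ 1 1 - γ 0 1 * γ 1 0 = 1 := by
  have := γ.det_coe
  rwa [Matrix.det_fin_two] at this

/-- W2a, slash form -/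
theorem Ker.slash_Gamma0 (H : Ker Q φ C) (hQ : Q.det ≠ 0) {M : ℕ} (hM : 0 < M)
    {f : (Fin 2 → ℤ) → ℂ} (hf : PerM M f) {γ : SL(2, ℤ)}
    (hγ : γ ∈ Gamma0 (4 * Q.det.natAbs * M ^ 2)) {d : ℕ} (hd : γ 1 1 = d) :
    TfH φ f ∣[(1 : ℤ)] γ = (J(-Q.det | d) : ℂ) • TfH φ (fun x => f ((d : ℤ) • x)) := by
  have hdet := sl_det γ
  rw [hd] at hdet
  have hc : 4 * (M : ℤ) ^ 2 * Q.det ∣ γ 1 0 := by
    have h1 := gamma0_dvd hγ
    refine dvd_trans ?_ h1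
    push_cast
    rw [show 4 * (M : ℤ) ^ 2 * Q.det = 4 * Q.det * (M : ℤ) ^ 2 by ring]
    exact mul_dvd_mul_right (mul_dvd_mul_left 4 ((dvd_abs _ _).2 dvd_rfl)) _
  funext τ
  have h1 := H.Tf_gamma hQ hM hf hdet hc τ.im_pos
  have h2 : ((γ • τ : ℍ) : ℂ) = ((γ 0 0 : ℂ) * τ + (γ 0 1 : ℂ)) / ((γ 1 0 : ℂ) * τ + (d : ℂ)) := by
    rw [UpperHalfPlane.coe_specialLinearGroup_apply, hd]
    simp
  have h3 : denom γ τ = (γ 1 0 : ℂ) * τ + (d : ℂ) := by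
    rw [denom_apply, hd]
    push_cast
    rfl
  have h4 : ((γ 1 0 : ℂ) * τ + (d : ℂ)) ≠ 0 := by
    rw [← h3]
    exact denom_ne_zero _ _
  rw [ModularForm.SL_slash_apply, h3]
  unfold TfH
  rw [h2, h1, zpow_neg, zpow_one, Pi.smul_apply, smul_eq_mul]
  field_simp

lemma Ker.slash_T (H : Ker Q φ C) {M : ℕ} (hM : 0 < M)
    {f : (Fin 2 → ℤ) → ℂ} (hf : PerM M f) (n : ℤ) :
    TfH φ f ∣[(1 : ℤ)] (T ^ n) = TfH φ f := by
  have : NeZero M := ⟨hM.ne'⟩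
  funext τ
  have h2 : ((T ^ n • τ : ℍ) : ℂ) = (τ : ℂ) + n := by
    rw [modular_T_zpow_smul, coe_vadd]
    push_cast
    ring
  have h3 : denom (T ^ n : SL(2, ℤ)) τ = 1 := by
    rw [denom_apply, coe_T_zpow]
    simp
  rw [ModularForm.SL_slash_apply, h3, one_zpow, mul_one]
  unfold TfH
  rw [h2]
  have h4 : 0 < ((τ : ℂ) + n).im := by simpa using τ.im_pos
  rw [H.Tf_eq hf h4, H.Tf_eq hf τ.im_pos]
  refine Finset.sum_congr rfl fun r _ => ?_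
  rw [H.Th_add_int τ.im_pos]

/-- invariance under `Γ₁(N)` -/
theorem Ker.slash_Gamma1 (H : Ker Q φ C) (hQ : Q.det ≠ 0) {M : ℕ} (hM : 0 < M)
    {f : (Fin 2 → ℤ) → ℂ} (hf : PerM M f) {γ : SL(2, ℤ)}
    (hγ : γ ∈ Gamma1 (4 * Q.det.natAbs * M ^ 2)) :
    TfH φ f ∣[(1 : ℤ)] γ = TfH φ f := by
  set N : ℕ := 4 * Q.det.natAbs * M ^ 2 with hN
  have hNpos : 0 < N := by
    have := Int.natAbs_pos.2 hQ
    positivity
  have hN4 : 4 ≤ N := by
    have h1 : 1 ≤ Q.det.natAbs := Int.natAbs_pos.2 hQ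
    have h2 : 1 ≤ M ^ 2 := Nat.one_le_pow _ _ hM
    calc 4 = 4 * 1 * 1 := by norm_num
      _ ≤ N := Nat.mul_le_mul (Nat.mul_le_mul_left 4 h1) h2
  rw [Gamma1_mem] at hγ
  obtain ⟨ha, hd, hc⟩ := hγ
  have hc' : (N : ℤ) ∣ γ 1 0 := (ZMod.intCast_zmod_eq_zero_iff_dvd _ _).1 hc
  have hd' : (N : ℤ) ∣ γ 1 1 - 1 := by
    have h1 : ((γ 1 1 - 1 : ℤ) : ZMod N) = 0 := by push_cast; rw [hd, sub_self]
    exact (ZMod.intCast_zmod_eq_zero_iff_dvd _ _).1 h1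
  have hdet := sl_det γ
  -- choose `k` with `d + k c > 0`
  obtain ⟨k, hk⟩ : ∃ k : ℤ, 0 < γ 1 1 + k * γ 1 0 := by
    by_cases h0 : γ 1 0 = 0
    · refine ⟨0, ?_⟩
      rw [h0, mul_zero, sub_zero] at hdet
      have h1 : γ 1 1 = 1 ∨ γ 1 1 = -1 := Int.isUnit_iff.1 (IsUnit.of_mul_eq_one (γ 0 0) (by rw [mul_comm]; exact hdet))
      rcases h1 with h1 | h1
      · rw [h1]; norm_num
      · exfalso
        rw [h1] at hd'
        have h2 := Int.le_of_dvd (by norm_num : (0 : ℤ) < 2) (by simpa using (dvd_neg.2 hd'))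
        have h3 : (4 : ℤ) ≤ N := by exact_mod_cast hN4
        linarith
    · refine ⟨γ 1 0 * (1 + |γ 1 1|), ?_⟩
      have h1 : 1 ≤ γ 1 0 * γ 1 0 := by
        have := mul_self_pos.2 h0
        omega
      have h2 := neg_abs_le (γ 1 1)
      have h3 := abs_nonneg (γ 1 1)
      nlinarith
  obtain ⟨d, hdd⟩ := Int.eq_ofNat_of_zero_le hk.le
  have e10 : (γ * T ^ k) 1 0 = γ 1 0 := by
    simp [Matrix.SpecialLinearGroup.coe_mul, coe_T_zpow, Matrix.mul_apply, Fin.sum_univ_two]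
  have e11 : (γ * T ^ k) 1 1 = d := by
    rw [← hdd]
    simp [Matrix.SpecialLinearGroup.coe_mul, coe_T_zpow, Matrix.mul_apply, Fin.sum_univ_two]
    ring
  have hmem : γ * T ^ k ∈ Gamma0 N := by
    rw [Gamma0_mem, e10]
    exact hc
  have h1 := H.slash_Gamma0 hQ hM hf hmem e11
  have hdN : (N : ℤ) ∣ (d : ℤ) - 1 := by
    rw [← hdd, show γ 1 1 + k * γ 1 0 - 1 = (γ 1 1 - 1) + k * γ 1 0 by ring]
    exact dvd_add hd' (Dvd.dvd.mul_left hc' _)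
  have hJ : J(-Q.det | d) = 1 := by
    have hodd : Odd d := by
      have h2 : (2 : ℤ) ∣ (d : ℤ) - 1 := dvd_trans ⟨2 * Q.det.natAbs * M ^ 2, by rw [hN]; push_cast; ring⟩ hdN
      have h3 : Odd (d : ℤ) := by
        obtain ⟨t, ht⟩ := h2
        exact ⟨t, by linarith⟩
      exact_mod_cast h3
    rw [jacobiSym.mod_right _ hodd, ← jacobiSym.one_right (-Q.det), jacobiSym.mod_right _ odd_one]
    congr 1
    have h4 : (d : ℤ) ≡ ((1 : ℕ) : ℤ) [ZMOD ((4 * (-Q.det).natAbs : ℕ) : ℤ)] := by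
      refine (Int.modEq_iff_dvd.2 ?_).symm
      refine dvd_trans ⟨M ^ 2, ?_⟩ hdN
      rw [hN, Int.natAbs_neg]
      push_cast
      ring
    exact Int.natCast_modEq_iff.1 h4
  have hfd : (fun x => f ((d : ℤ) • x)) = f := by
    funext x
    obtain ⟨t, ht⟩ := hdN
    have h5 : (d : ℤ) • x = x + (M : ℤ) • ((4 * Q.det.natAbs * M * t : ℤ) • x) := by
      rw [smul_smul, show (d : ℤ) = 1 + N * t by linarith, add_smul, one_smul, hN]
      congr 2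
      push_cast
      ring
    rw [h5, hf]
  rw [hJ, hfd, Int.cast_one, one_smul, SlashAction.slash_mul] at h1
  have h6 : TfH φ f ∣[(1 : ℤ)] γ =
      ((TfH φ f ∣[(1 : ℤ)] γ) ∣[(1 : ℤ)] (T ^ k)) ∣[(1 : ℤ)] (T ^ (-k)) := by
    rw [← SlashAction.slash_mul, ← zpow_add, add_neg_cancel, zpow_zero, SlashAction.slash_one]
  rw [h6, h1, H.slash_T hM hf]

end

end Vale.Agent.P022.H23
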