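import Vale.Agent.P022.H23.ThetaMF
import Vale.Agent.P022.H436.Imag
import Vale.Agent.P022.H954.P9

/-!
# P022, package W: the two interface statements consumed by the imaginary and the real assembly
-/

open UpperHalfPlane ModularGroup CongruenceSubgroup Matrix.SpecialLinearGroup
open scoped Real MatrixGroups ModularForm NumberTheorySymbols

namespace Vale.Agent.P022.H23

noncomputable section

/-- the packaging statement used by the real case -/
theorem pack954 : H954.Pack := by
  intro N g inv hE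
  refine exists_MF inv fun γ => ?_
  obtain ⟨h, c, -, hc⟩ := hE γ
  exact ⟨h, c, hc⟩

/-- the theta statement used by the imaginary case -/
theorem thetaMF : H436.ThetaMF := by
  intro A B C hA hD M hM f hf χ hχ
  have hpos : (BQ.mk A B C).Pos := ⟨hA, hD⟩
  have hdet : -(BQ.mk A B C).det = B ^ 2 - 4 * A * C := by simp [BQ.det]
  have hnat : (BQ.mk A B C).det.natAbs = (B ^ 2 - 4 * A * C).natAbs := by
    rw [← hdet, Int.natAbs_neg]
  have h := theta_MF hpos hM (f := f) hf
  rw [hnat, hdet] at h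
  obtain ⟨g, -, hq, hneb, hv⟩ := h
  have hD0 : (B ^ 2 - 4 * A * C).natAbs ≠ 0 := by
    rw [← hnat]
    exact Int.natAbs_ne_zero.2 hpos.hD.ne'
  refine ⟨g, ?_, ?_, hv⟩
  · have e : ∀ n : ℕ, {x : Fin 2 → ℤ | (BQ.mk A B C).q x = n} =
        {x : Fin 2 → ℤ | A * x 0 ^ 2 + B * x 0 * x 1 + C * x 1 ^ 2 = n} := by
      intro n
      ext x
      simp [BQ.q]
    simp_rw [e] at hq
    exact hq
  · intro γ hγ d hd
    refine hneb γ hγ d hd (χ d) (hχ d (Nat.pos_of_ne_zero ?_))
    rintro rfl
    have h1 := sl_det γ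
    have h2 := gamma0_dvd hγ
    rw [hd] at h1
    obtain ⟨t, ht⟩ := h2
    rw [ht] at h1
    have h3 : (2 : ℤ) ∣ 1 := by
      rw [← h1]
      push_cast
      exact ⟨-(γ 0 1 * (2 * |B ^ 2 - 4 * A * C| * (M : ℤ) ^ 2 * t)), by ring⟩
    norm_num at h3

end

end Vale.Agent.P022.H23
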