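import Vale.Agent.P022.H23.Gs

/-!
# P022, package W: splitting `ℤ²` modulo `d`, summability of the dual family
-/

open Complex Finset
open scoped Real
open Vale.Agent.P267.H775 (toR toR_apply chr)

namespace Vale.Agent.P022.H23

noncomputable section

/-- representatives -/
def rv {d : ℕ} (r : Fin 2 → ZMod d) : Fin 2 → ℤ := fun i => ((r i).val : ℤ)

/-- `ℤ² = ⨆ r + d ℤ²` -/
def dec (d : ℕ) [NeZero d] : (Fin 2 → ZMod d) × (Fin 2 → ℤ) ≃ (Fin 2 → ℤ) where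
  toFun x := rv x.1 + (d : ℤ) • x.2
  invFun n := (fun i => (n i : ZMod d), fun i => n i / d)
  left_inv x := by
    obtain ⟨r, m⟩ := x
    have hd : (0 : ℤ) < d := by exact_mod_cast Nat.pos_of_ne_zero (NeZero.ne d)
    refine Prod.ext (funext fun i => ?_) (funext fun i => ?_)
    · simp [rv]
    · simp only [rv, Pi.add_apply, Pi.smul_apply, smul_eq_mul]
      rw [Int.add_mul_ediv_left _ _ hd.ne', Int.ediv_eq_zero_of_lt (by positivity)
        (by exact_mod_cast ZMod.val_lt (r i)), zero_add]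
  right_inv n := by
    funext i
    simp only [rv, Pi.add_apply, Pi.smul_apply, smul_eq_mul, ZMod.val_intCast]
    exact Int.emod_add_mul_ediv _ _

lemma dec_apply (d : ℕ) [NeZero d] (r : Fin 2 → ZMod d) (m : Fin 2 → ℤ) :
    dec d (r, m) = rv r + (d : ℤ) • m := rfl

lemma tsum_dec (d : ℕ) [NeZero d] {f : (Fin 2 → ℤ) → ℂ} (hf : Summable f) :
    ∑' n, f n = ∑ r : Fin 2 → ZMod d, ∑' m : Fin 2 → ℤ, f (rv r + (d : ℤ) • m) := by
  have h := (dec d).tsum_eq f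
  have h2 := Summable.tsum_prod ((dec d).summable_iff.2 hf)
  rw [← h]
  refine Eq.trans h2 ?_
  rw [tsum_fintype]
  rfl

lemma summable_dec (d : ℕ) [NeZero d] {f : (Fin 2 → ℤ) → ℂ}
    (hf : ∀ r : Fin 2 → ZMod d, Summable fun m : Fin 2 → ℤ => f (rv r + (d : ℤ) • m)) :
    Summable f := by
  rw [← (dec d).summable_iff]
  rw [← summable_norm_iff]
  rw [summable_prod_of_nonneg (fun _ => norm_nonneg _)]
  refine ⟨fun r => (hf r).norm, ?_⟩
  exact Summable.of_finite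

lemma norm_chr' (k : Fin 2 → ℤ) (x : Fin 2 → ℝ) : ‖chr k x‖ = 1 := by
  unfold chr
  rw [show (2 * π * I * ∑ i, (k i : ℂ) * x i : ℂ) =
    ((2 * π * ∑ i, (k i : ℝ) * x i : ℝ) : ℂ) * I by push_cast; ring]
  exact Complex.norm_exp_ofReal_mul_I _

lemma BQ.dl_add (Q : BQ) (x y : Fin 2 → ℤ) : Q.dl (x + y) = Q.dl x + Q.dl y := by
  funext i
  fin_cases i
  · simp [BQ.dl]; ring
  · simp [BQ.dl]; ring

lemma BQ.dl_smul (Q : BQ) (t : ℤ) (x : Fin 2 → ℤ) : Q.dl (t • x) = t • Q.dl x := by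
  funext i
  fin_cases i
  · simp [BQ.dl]; ring
  · simp [BQ.dl]; ring

lemma toR_add (x y : Fin 2 → ℤ) : toR (x + y) = toR x + toR y := by
  funext i; simp

lemma toR_smul (t : ℤ) (x : Fin 2 → ℤ) : toR (t • x) = (t : ℝ) • toR x := by
  funext i; simp

/-- Gram matrix -/
def BQ.gr (Q : BQ) (n : Fin 2 → ℤ) : Fin 2 → ℤ :=
  ![2 * Q.a * n 0 + Q.b * n 1, Q.b * n 0 + 2 * Q.c * n 1]

lemma BQ.gr_dl (Q : BQ) (n : Fin 2 → ℤ) : Q.gr (Q.dl n) = Q.det • n := by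
  funext i
  fin_cases i
  · simp [BQ.dl, BQ.gr, BQ.det]; ring
  · simp [BQ.dl, BQ.gr, BQ.det]; ring

lemma BQ.dl_gr (Q : BQ) (n : Fin 2 → ℤ) : Q.dl (Q.gr n) = Q.det • n := by
  funext i
  fin_cases i
  · simp [BQ.dl, BQ.gr, BQ.det]; ring
  · simp [BQ.dl, BQ.gr, BQ.det]; ring

lemma BQ.dl_injective (Q : BQ) (hQ : Q.det ≠ 0) : Function.Injective Q.dl := by
  intro x y h
  have h2 : Q.det • x = Q.det • y := by rw [← Q.gr_dl, ← Q.gr_dl, h]
  funext i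
  have h3 := congrFun h2 i
  simp only [Pi.smul_apply, smul_eq_mul] at h3
  exact mul_left_cancel₀ hQ h3

lemma BQ.dr_add (Q : BQ) (x y : Fin 2 → ℤ) : Q.dr (x + y) = Q.dr x + Q.dr y := by
  simp only [BQ.dr, Q.dl_add, toR_add, smul_add]

lemma BQ.dr_gr (Q : BQ) (hQ : Q.det ≠ 0) (n : Fin 2 → ℤ) : Q.dr (Q.gr n) = toR n := by
  have h : (Q.det : ℝ) ≠ 0 := by exact_mod_cast hQ
  rw [BQ.dr, Q.dl_gr, toR_smul, smul_smul, inv_mul_cancel₀ h, one_smul]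

namespace Ker

variable {Q : BQ} {φ : ℂ → (Fin 2 → ℝ) → ℂ} {C : ℂ} (H : Ker Q φ C)

include H

/-- the dual family is summable -/
lemma summable_dr (hQ : Q.det ≠ 0) {z : ℂ} (hz : 0 < z.im) :
    Summable fun k : Fin 2 → ℤ => φ z (Q.dr k) := by
  set d : ℕ := Q.det.natAbs with hd
  have hd0 : d ≠ 0 := Int.natAbs_ne_zero.2 hQ
  have : NeZero d := ⟨hd0⟩
  obtain ⟨s, hs, hsd⟩ : ∃ s : ℤ, s * s = 1 ∧ (d : ℤ) = s * Q.det := by
    rcases Int.natAbs_eq Q.det with h | h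
    · exact ⟨1, by norm_num, by rw [one_mul]; exact h.symm⟩
    · exact ⟨-1, by norm_num, by rw [hd]; omega⟩
  refine summable_dec d fun r => ?_
  have h1 : ∀ m : Fin 2 → ℤ, Q.dr (rv r + (d : ℤ) • m) = Q.dr (rv r) + toR (Q.dl (s • m)) := by
    intro m
    rw [Q.dr_add]
    congr 1
    rw [hsd, mul_comm s, mul_smul, ← Q.gr_dl (s • m), Q.dr_gr hQ]
  simp_rw [h1]
  have hinj : Function.Injective fun m : Fin 2 → ℤ => Q.dl (s • m) := by
    intro x y h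
    have h2 := Q.dl_injective hQ h
    have h3 : s • (s • x) = s • (s • y) := by rw [h2]
    rwa [smul_smul, smul_smul, hs, one_smul, one_smul] at h3
  exact (H.sum z hz (Q.dr (rv r))).comp_injective hinj

lemma summable_dr_M (hQ : Q.det ≠ 0) {z : ℂ} (hz : 0 < z.im) {M : ℕ} (hM : 0 < M) :
    Summable fun k : Fin 2 → ℤ => φ z ((M : ℝ)⁻¹ • Q.dr k) := by
  have hM' : (0 : ℝ) < M := by exact_mod_cast hM
  have h2 : (((((M : ℝ)⁻¹ : ℝ) : ℂ)) ^ 2 * z : ℂ) = ((((M : ℝ)⁻¹ ^ 2 : ℝ)) : ℂ) * z := by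
    push_cast; ring
  have hz2 : 0 < (((((M : ℝ)⁻¹ : ℝ) : ℂ)) ^ 2 * z : ℂ).im := by
    rw [h2, Complex.im_ofReal_mul]
    positivity
  refine (H.summable_dr hQ hz2).congr fun k => ?_
  rw [H.scale z hz _ (inv_pos.2 hM')]

end Ker

end

end Vale.Agent.P022.H23
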