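import Vale.Agent.P022.H23.Pack
import Vale.Agent.P022.H23.Slash
import Vale.Agent.P022.H23.Imag

/-!
# P022, package W: theta series of positive definite binary forms as modular forms of weight one
-/

open Complex UpperHalfPlane ModularGroup CongruenceSubgroup Matrix.SpecialLinearGroup
open scoped Real MatrixGroups ModularForm NumberTheorySymbols
open Vale.Agent.P267.H775 (toR toR_apply chr qf qf_nonneg)

namespace Vale.Agent.P022.H23

noncomputable section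

/-- grouping a series by the value of a function with finite fibres -/
lemma hasSum_fiber {ι : Type*} (g : ι → ℕ) {F : ι → ℂ} {e : ℕ → ℂ}
    (hs : Summable fun k => F k * e (g k)) (hfin : ∀ n, {k | g k = n}.Finite) :
    HasSum (fun n => (∑ᶠ k ∈ {k | g k = n}, F k) * e n) (∑' k, F k * e (g k)) := by
  have h1 := (Equiv.sigmaFiberEquiv g).hasSum_iff.2 hs.hasSum
  refine h1.sigma fun n => ?_
  have : Fintype {k // g k = n} := (hfin n).fintype
  have h2 : (∑ᶠ k ∈ {k | g k = n}, F k) * e n =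
      ∑ k : {k // g k = n}, F k.1 * e (g k.1) := by
    rw [finsum_mem_eq_finite_toFinset_sum _ (hfin n), Finset.sum_mul]
    refine Finset.sum_bij' (fun k hk => ⟨k, by simpa using! hk⟩) (fun k _ => k.1)
      (fun _ _ => Finset.mem_univ _) (fun k _ => by simpa using k.2) (fun _ _ => rfl)
      (fun _ _ => rfl) ?_
    intro k hk
    have h3 : g k = n := by simpa using hk
    change F k * e n = F k * e (g k)
    rw [h3]
  rw [h2]
  exact hasSum_fintype _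

/-- ultrametric bound for finite sums -/
lemma v_sum_le {v : AbsoluteValue ℂ ℝ} (hv : ∀ x y : ℂ, v (x + y) ≤ max (v x) (v y))
    {ι : Type*} (s : Finset ι) (F : ι → ℂ) {C : ℝ} (hC : 0 ≤ C) (h : ∀ i ∈ s, v (F i) ≤ C) :
    v (∑ i ∈ s, F i) ≤ C := by
  classical
  induction s using Finset.induction_on with
  | empty => simp [hC]
  | insert a s ha ih =>
    rw [Finset.sum_insert ha]
    refine (hv _ _).trans (max_le (h a (Finset.mem_insert_self _ _)) (ih fun i hi => ?_))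
    exact h i (Finset.mem_insert_of_mem hi)

lemma v_finsum_le {v : AbsoluteValue ℂ ℝ} (hv : ∀ x y : ℂ, v (x + y) ≤ max (v x) (v y))
    {ι : Type*} {F : ι → ℂ} {C : ℝ} (hC : 0 ≤ C) (h : ∀ i, v (F i) ≤ C) {S : Set ι}
    (hS : S.Finite) : v (∑ᶠ i ∈ S, F i) ≤ C := by
  rw [finsum_mem_eq_finite_toFinset_sum _ hS]
  exact v_sum_le hv _ _ hC fun i _ => h i

lemma v_bdd_of_range {v : AbsoluteValue ℂ ℝ} {ι : Type*} {F : ι → ℂ} (h : (Set.range F).Finite) :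
    ∃ C : ℝ, 0 ≤ C ∧ ∀ i, v (F i) ≤ C := by
  refine ⟨∑ x ∈ h.toFinset, v x, Finset.sum_nonneg fun _ _ => v.nonneg _, fun i => ?_⟩
  exact Finset.single_le_sum (f := fun x => v x) (fun _ _ => v.nonneg _)
    (by simp : F i ∈ h.toFinset)

variable {Q : BQ}

lemma BQ.Pos.q_nonneg (hQ : Q.Pos) (x : Fin 2 → ℝ) : 0 ≤ Q.q x := by
  have h1 := qf_nonneg (pm Q) x
  rw [qf_pm hQ] at h1
  linarith

lemma BQ.Pos.q_int_nonneg (hQ : Q.Pos) (x : Fin 2 → ℤ) : 0 ≤ Q.q x := by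
  have h1 := hQ.q_nonneg (toR x)
  rw [Q.q_toR] at h1
  exact_mod_cast h1

lemma BQ.Pos.qd_nonneg (hQ : Q.Pos) (k : Fin 2 → ℤ) : 0 ≤ Q.qd k := by
  have h1 := hQ.q_nonneg (Q.dr k)
  rw [Q.q_dr hQ.hD.ne'] at h1
  have hD : (0 : ℝ) < Q.det := by exact_mod_cast hQ.hD
  have h2 : (0 : ℝ) ≤ (Q.qd k : ℝ) := by
    have := mul_nonneg h1 hD.le
    rwa [div_mul_cancel₀ _ hD.ne'] at this
  exact_mod_cast h2

lemma BQ.Pos.sc (hQ : Q.Pos) {M : ℕ} (hM : 0 < M) : (Q.sc M).Pos where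
  ha := by
    have := hQ.ha
    have hM' : (0 : ℤ) < M := by exact_mod_cast hM
    simp only [BQ.sc]
    positivity
  hD := by
    rw [Q.sc_det]
    have := hQ.hD
    have hM' : (0 : ℤ) < M := by exact_mod_cast hM
    positivity

lemma sck_ik (M : ℕ) : sck (ik Q) M = ik (Q.sc M) := by
  funext z x
  unfold sck ik
  rw [Q.sc_q]

lemma norm_ik (z : ℂ) (x : Fin 2 → ℝ) :
    ‖ik Q z x‖ = Real.exp (-(2 * π * z.im * Q.q x)) := by
  unfold ik
  rw [Complex.norm_exp]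
  congr 1
  rw [show (2 * π * Complex.I * z * (Q.q x : ℝ) : ℂ) =
    ((2 * π * Q.q x : ℝ) : ℂ) * (Complex.I * z) by push_cast; ring, Complex.re_ofReal_mul]
  simp
  ring

lemma finite_fiber {ι : Type*} (u : ι → Fin 2 → ℝ)
    (hs : Summable fun k => ik Q Complex.I (u k)) (B : ℝ) : {k | Q.q (u k) ≤ B}.Finite := by
  have h1 := hs.norm.tendsto_cofinite_zero
  have h2 : ∀ᶠ k in Filter.cofinite, ‖ik Q Complex.I (u k)‖ < Real.exp (-(2 * π * 1 * B)) :=
    h1.eventually_lt_const (Real.exp_pos _)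
  rw [Filter.eventually_cofinite] at h2
  refine h2.subset fun k hk => ?_
  simp only [Set.mem_ofPred_eq, not_lt] at hk ⊢
  rw [norm_ik, Complex.I_im]
  refine Real.exp_le_exp.2 (neg_le_neg ?_)
  have := Real.pi_pos
  gcongr

lemma qd_fin (hQ : Q.Pos) (n : ℕ) : {k : Fin 2 → ℤ | (Q.qd k).toNat = n}.Finite := by
  have hD0 : Q.det ≠ 0 := hQ.hD.ne'
  have H := ik_ker hQ
  have h1 := finite_fiber (Q := Q) (fun k : Fin 2 → ℤ => Q.dr k)
    (H.summable_dr hD0 (by simp : 0 < Complex.I.im)) ((n : ℝ) / Q.det)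
  refine h1.subset fun k hk => ?_
  simp only [Set.mem_ofPred_eq] at hk ⊢
  rw [Q.q_dr hD0]
  have hD : (0 : ℝ) < Q.det := by exact_mod_cast hQ.hD
  gcongr
  have h2 : (((Q.qd k).toNat : ℕ) : ℤ) = Q.qd k := Int.toNat_of_nonneg (hQ.qd_nonneg k)
  rw [hk] at h2
  exact_mod_cast h2.symm.le

/-- expansion of the theta series over the dual lattice -/
theorem TFH_hasE (hQ : Q.Pos) {F : (Fin 2 → ℤ) → ℂ} (hF : Per Q F) :
    HasE Q.det.natAbs (fun n => ∑ᶠ k ∈ {k : Fin 2 → ℤ | (Q.qd k).toNat = n}, F k)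
      (TFH (ik Q) Q F) := by
  intro τ
  have hD0 : Q.det ≠ 0 := hQ.hD.ne'
  have H := ik_ker hQ
  have hs := H.summable_TF hD0 hF τ.im_pos
  have e1 : ∀ k : Fin 2 → ℤ, ik Q (τ : ℂ) (Q.dr k) =
      cexp (2 * Real.pi * Complex.I * (Q.qd k).toNat * τ / Q.det.natAbs) := by
    intro k
    unfold ik
    rw [Q.q_dr hD0]
    congr 1
    have h2 : (((Q.qd k).toNat : ℕ) : ℂ) = (Q.qd k : ℂ) := by
      have : (((Q.qd k).toNat : ℕ) : ℤ) = Q.qd k := Int.toNat_of_nonneg (hQ.qd_nonneg k)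
      exact_mod_cast this
    have h3 : ((Q.det.natAbs : ℕ) : ℂ) = (Q.det : ℂ) := by
      rw [← Int.cast_natCast, Int.natAbs_of_nonneg hQ.hD.le]
    rw [h2, h3]
    push_cast
    ring
  simp_rw [e1] at hs
  have h := hasSum_fiber (fun k : Fin 2 → ℤ => (Q.qd k).toNat)
    (e := fun n => cexp (2 * Real.pi * Complex.I * n * τ / Q.det.natAbs)) hs (qd_fin hQ)
  unfold TFH TF
  simp_rw [e1]
  exact h

/-- `q`-expansion -/
theorem TfH_hasE (hQ : Q.Pos) {M : ℕ} (hM : 0 < M) {f : (Fin 2 → ℤ) → ℂ} (hf : PerM M f) :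
    HasE 1 (fun n => ∑ᶠ x ∈ {x : Fin 2 → ℤ | Q.q x = n}, f x) (TfH (ik Q) f) := by
  intro τ
  have : NeZero M := ⟨hM.ne'⟩
  have H := ik_ker hQ
  have hs := H.summable_Tf hf τ.im_pos
  have hset : ∀ n : ℕ, {x : Fin 2 → ℤ | Q.q x = n} = {x : Fin 2 → ℤ | (Q.q x).toNat = n} := by
    intro n
    ext x
    simp only [Set.mem_ofPred_eq]
    have := hQ.q_int_nonneg x
    omega
  have e1 : ∀ x : Fin 2 → ℤ, ik Q (τ : ℂ) (toR x) =
      cexp (2 * Real.pi * Complex.I * (Q.q x).toNat * τ / (1 : ℕ)) := by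
    intro x
    unfold ik
    rw [Q.q_toR]
    congr 1
    have h2 : (((Q.q x).toNat : ℕ) : ℂ) = ((Q.q x : ℤ) : ℂ) := by
      have : (((Q.q x).toNat : ℕ) : ℤ) = Q.q x := Int.toNat_of_nonneg (hQ.q_int_nonneg x)
      exact_mod_cast this
    rw [h2]
    push_cast
    ring
  have hfin : ∀ n, {x : Fin 2 → ℤ | (Q.q x).toNat = n}.Finite := by
    intro n
    have hs0 : Summable fun k : Fin 2 → ℤ => ik Q Complex.I (toR k) := by
      have := H.sum Complex.I (by simp) 0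
      simpa using this
    have h1 := finite_fiber (Q := Q) (fun k : Fin 2 → ℤ => toR k) hs0 (n : ℝ)
    refine h1.subset fun k hk => ?_
    simp only [Set.mem_ofPred_eq] at hk ⊢
    rw [Q.q_toR]
    have h2 : (((Q.q k).toNat : ℕ) : ℤ) = Q.q k := Int.toNat_of_nonneg (hQ.q_int_nonneg k)
    rw [hk] at h2
    exact_mod_cast h2.symm.le
  simp_rw [e1] at hs
  have h := hasSum_fiber (fun x : Fin 2 → ℤ => (Q.q x).toNat)
    (e := fun n => cexp (2 * Real.pi * Complex.I * n * τ / (1 : ℕ))) hs hfin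
  unfold TfH Tf
  simp_rw [e1, hset]
  exact h

lemma ik_C_ne (hQ : Q.Pos) : Complex.I / ((√(Q.det : ℝ) : ℝ) : ℂ) ≠ 0 := by
  have hD : (0 : ℝ) < Q.det := by exact_mod_cast hQ.hD
  refine div_ne_zero Complex.I_ne_zero ?_
  exact_mod_cast (Real.sqrt_pos.2 hD).ne'

/-- theta series of positive definite binary forms are modular forms of weight one -/
theorem theta_MF (hQ : Q.Pos) {M : ℕ} (hM : 0 < M) {f : (Fin 2 → ℤ) → ℂ} (hf : PerM M f) :
    ∃ g : MF (4 * Q.det.natAbs * M ^ 2) 1, (g : ℍ → ℂ) = TfH (ik Q) f ∧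
      HasQ g (fun n => ∑ᶠ x ∈ {x : Fin 2 → ℤ | Q.q x = n}, f x) ∧
      (∀ γ ∈ Gamma0 (4 * Q.det.natAbs * M ^ 2), ∀ d : ℕ, γ 1 1 = d → ∀ χ : ℂ,
        (∀ x, f ((d : ℤ) • x) = χ * f x) →
        (g : ℍ → ℂ) ∣[(1 : ℤ)] γ = ((J(-Q.det | d) : ℂ) * χ) • (g : ℍ → ℂ)) ∧
      ∀ v : AbsoluteValue ℂ ℝ, (∀ x y : ℂ, v (x + y) ≤ max (v x) (v y)) → VBdd v 1 g := by
  have H := ik_ker hQ
  have hD0 : Q.det ≠ 0 := hQ.hD.ne'
  have hsl := fun γ : SL(2, ℤ) => Tf_SL2 hD0 (ik_C_ne hQ) hM hf γ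
  obtain ⟨g, hg⟩ := exists_MF (N := 4 * Q.det.natAbs * M ^ 2) (k := 1) (f := TfH (ik Q) f)
    (fun γ hγ => H.slash_Gamma1 hD0 hM hf hγ) (fun γ => by
      obtain ⟨F', hF', h⟩ := hsl γ
      have h1 := h (ik Q) H
      rw [sck_ik] at h1
      have h2 := TFH_hasE (hQ.sc hM) hF'
      rw [← h1] at h2
      exact ⟨_, _, h2⟩)
  refine ⟨g, hg, ?_, ?_, ?_⟩
  · intro τ
    rw [hg]
    have := TfH_hasE hQ hM hf τ
    simpa using this
  · intro γ hγ d hd χ hχ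
    rw [hg, H.slash_Gamma0 hD0 hM hf hγ hd, mul_smul]
    congr 1
    funext τ
    unfold TfH Tf
    rw [Pi.smul_apply, smul_eq_mul, ← tsum_mul_left]
    refine tsum_congr fun x => ?_
    simp only
    rw [hχ, mul_assoc]
  · intro v hv γ
    obtain ⟨F', hF', h⟩ := hsl γ
    have h1 := h (ik Q) H
    rw [sck_ik] at h1
    obtain ⟨C, hC0, hC⟩ := v_bdd_of_range (v := v) (hF'.finite_range (BQ.sc_det_ne hD0 hM))
    have h2 := TFH_hasE (hQ.sc hM) hF'
    rw [← h1] at h2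
    rw [hg]
    exact ⟨C, (Q.sc M).det.natAbs, _, Int.natAbs_pos.2 (BQ.sc_det_ne hD0 hM),
      fun n => v_finsum_le hv hC0 hC (qd_fin (hQ.sc hM) n), h2⟩

end

end Vale.Agent.P022.H23
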