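import Vale.Agent.P022.H23.Trans
import Mathlib.NumberTheory.LSeries.PrimesInAP
import Mathlib.NumberTheory.LegendreSymbol.JacobiSymbol

/-!
# P022, package W: the transformation formula under `Γ₀(4 M² |det|)`
-/

open Complex Finset
open scoped Real NumberTheorySymbols
open Vale.Agent.P267.H775 (toR toR_apply chr)

namespace Vale.Agent.P022.H23

noncomputable section

lemma Th_shift (φ : ℂ → (Fin 2 → ℝ) → ℂ) (M : ℕ) (h n : Fin 2 → ℤ) (z : ℂ) :
    Th φ M (h + (M : ℤ) • n) z = Th φ M h z := by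
  unfold Th
  rw [← (Equiv.addLeft n).tsum_eq (fun m => φ z (toR (h + (M : ℤ) • m)))]
  refine tsum_congr fun m => ?_
  simp only [Equiv.coe_addLeft, smul_add, add_assoc]

lemma md_eq_iff {M : ℕ} {h h' : Fin 2 → ℤ} (e : md M h = md M h') :
    ∃ n : Fin 2 → ℤ, h' = h + (M : ℤ) • n := by
  have h1 : ∀ i, ∃ n : ℤ, h' i = h i + M * n := by
    intro i
    have h2 : ((h i : ℤ) : ZMod M) = ((h' i : ℤ) : ZMod M) := congrFun e i
    rw [ZMod.intCast_eq_intCast_iff_dvd_sub] at h2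
    obtain ⟨n, hn⟩ := h2
    exact ⟨n, by linarith⟩
  choose n hn using h1
  exact ⟨n, funext fun i => by simp [hn i]⟩

lemma Th_congr (φ : ℂ → (Fin 2 → ℝ) → ℂ) {M : ℕ} {h h' : Fin 2 → ℤ} (z : ℂ)
    (e : md M h = md M h') : Th φ M h z = Th φ M h' z := by
  obtain ⟨n, hn⟩ := md_eq_iff e
  rw [hn, Th_shift]

lemma Ker.Th_add_int {Q : BQ} {φ : ℂ → (Fin 2 → ℝ) → ℂ} {C : ℂ} (H : Ker Q φ C)
    {M : ℕ} {z : ℂ} (hz : 0 < z.im) (h : Fin 2 → ℤ) (k : ℤ) :
    Th φ M h (z + k) = Th φ M h z := by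
  unfold Th
  refine tsum_congr fun n => ?_
  have h1 := H.add z hz k (toR (h + (M : ℤ) • n))
  rw [Q.q_toR] at h1
  have h2 : ee ((k : ℝ) * ((Q.q (h + (M : ℤ) • n) : ℤ) : ℝ)) = 1 := by
    rw [← Int.cast_mul, ee_int]
  rw [h2, one_mul] at h1
  rw [← h1]
  norm_cast

/-- the transformation formula -/
theorem Ker.Th_gamma {Q : BQ} {φ : ℂ → (Fin 2 → ℝ) → ℂ} {C : ℂ} (H : Ker Q φ C)
    (hQ : Q.det ≠ 0) {M : ℕ} (hM : 0 < M) {a b c : ℤ} {d : ℕ} (had : a * d - b * c = 1)
    (hc : 4 * (M : ℤ) ^ 2 * Q.det ∣ c) {z : ℂ} (hz : 0 < z.im) (h : Fin 2 → ℤ) :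
    Th φ M h ((a * z + b) / (c * z + d)) = (c * z + d) * (J(-Q.det | d) : ℂ) *
      Th φ M (a • h) z := by
  by_cases hc0 : c = 0
  · subst hc0
    have h1 : (d : ℤ) ∣ 1 := ⟨a, by linarith⟩
    have h2 : d = 1 := by
      have := Int.natCast_dvd_natCast.1 (by simpa using h1 : (d : ℤ) ∣ ((1 : ℕ) : ℤ))
      exact Nat.dvd_one.1 this
    subst h2
    have h3 : a = 1 := by push_cast at had; linarith
    subst h3
    have h4 : ((((1 : ℤ) : ℂ)) * z + b) / (((0 : ℤ) : ℂ) * z + ((1 : ℕ) : ℂ)) = z + b := by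
      push_cast; rw [zero_mul, zero_add, div_one, one_mul]
    rw [h4, H.Th_add_int hz, jacobiSym.one_right, one_smul]
    push_cast
    ring
  · obtain ⟨c', hc'⟩ := hc
    -- coprimality
    have hcop : IsCoprime (d : ℤ) (c.natAbs : ℤ) := by
      rw [Int.natCast_natAbs, IsCoprime.abs_right_iff]
      exact ⟨a, -b, by linarith⟩
    obtain ⟨p, -, hp, hpd⟩ := Nat.forall_exists_prime_gt_and_zmodEq 0
      (q := c.natAbs) (Int.natAbs_ne_zero.2 hc0) hcop
    have : Fact p.Prime := ⟨hp⟩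
    obtain ⟨k, hk⟩ : ∃ k : ℤ, (p : ℤ) = d + k * c := by
      have h1 : (c.natAbs : ℤ) ∣ (p : ℤ) - d := hpd.symm.dvd
      rw [Int.natAbs_dvd] at h1
      obtain ⟨k, hk⟩ := h1
      exact ⟨k, by linarith⟩
    have had2 : a * p - (b + k * a) * c = 1 := by rw [hk]; linear_combination had
    have had3 : a * p - (b + k * a) * ((M : ℤ) ^ 2 * Q.det * (4 * c')) = 1 := by
      rw [← had2, hc']; ring
    have hmod := congrArg (Int.cast : ℤ → ZMod p) had2
    rw [hc'] at hmod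
    push_cast at hmod
    rw [ZMod.natCast_self, mul_zero, zero_sub] at hmod
    have hu : ((b + k * a : ℤ) : ZMod p) ≠ 0 := by
      intro h0
      push_cast at h0
      rw [h0, zero_mul, neg_zero] at hmod
      exact zero_ne_one hmod
    have hD : ((Q.det : ℤ) : ZMod p) ≠ 0 := by
      intro h0
      rw [h0] at hmod
      simp at hmod
    have hp2 : p ≠ 2 := by
      rintro rfl
      have h0 : (4 : ZMod 2) = 0 := by
        have h5 : ((4 : ℕ) : ZMod 2) = 0 := (ZMod.natCast_eq_zero_iff 4 2).2 (by norm_num)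
        exact_mod_cast h5
      rw [h0] at hmod
      simp at hmod
    have hzk : 0 < (z - k).im := by simpa using hz
    have h1 := H.Th_trans hQ (M := M) (d := p) hM had3 hzk h
    have e1 : ((M : ℤ) ^ 2 * Q.det * (4 * c') : ℤ) = c := by rw [hc']; ring
    have hkc : (p : ℂ) = d + k * c := by exact_mod_cast hk
    have e2 : (((M : ℤ) ^ 2 * Q.det * (4 * c') : ℤ) : ℂ) * (z - k) + p = c * z + d := by
      rw [e1, hkc]; ring
    have e3 : (a : ℂ) * (z - k) + ((b + k * a : ℤ) : ℂ) = a * z + b := by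
      push_cast; ring
    rw [e2, e3] at h1
    rw [h1]
    have h2 : Th φ M (a • h) (z - k) = Th φ M (a • h) z := by
      have := H.Th_add_int (M := M) hzk (a • h) k
      rw [← this, sub_add_cancel]
    rw [h2, GS_prime hp2 Q hD hu, mul_comm (p : ℂ), mul_div_assoc,
      div_self (by exact_mod_cast hp.ne_zero : (p : ℂ) ≠ 0), mul_one]
    congr 2
    -- the Jacobi symbol
    have hpodd : Odd p := hp.odd_of_ne_two hp2
    have hdodd : Odd d := by
      have h3 : Odd (d : ℤ) := by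
        have h4 : (d : ℤ) = p - k * c := by linarith
        rw [h4, hc']
        have h5 : Odd (p : ℤ) := by exact_mod_cast hpodd
        refine h5.sub_even ?_
        exact ⟨k * (2 * (M : ℤ) ^ 2 * Q.det * c'), by ring⟩
      exact_mod_cast h3
    have h6 : J(-Q.det | p) = J(-Q.det | d) := by
      rw [jacobiSym.mod_right _ hpodd, jacobiSym.mod_right _ hdodd]
      congr 1
      have h7 : (p : ℤ) ≡ d [ZMOD ((4 * (-Q.det).natAbs : ℕ) : ℤ)] := by
        refine (Int.modEq_iff_dvd.2 ?_).symm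
        rw [show (p : ℤ) - d = k * c by linarith, hc', Int.natAbs_neg]
        push_cast
        rw [show k * (4 * (M : ℤ) ^ 2 * Q.det * c') = 4 * Q.det * (k * (M : ℤ) ^ 2 * c') by ring]
        exact Dvd.dvd.mul_right (mul_dvd_mul_left 4 ((abs_dvd _ _).2 dvd_rfl)) _
      exact (Int.natCast_modEq_iff.1 h7)
    rw [← h6, ← jacobiSym.legendreSym.to_jacobiSym]
    rfl

/-- the theta series with a coefficient function -/
def Tf (φ : ℂ → (Fin 2 → ℝ) → ℂ) (f : (Fin 2 → ℤ) → ℂ) (z : ℂ) : ℂ :=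
  ∑' x : Fin 2 → ℤ, f x * φ z (toR x)

/-- `f` is periodic modulo `M` -/
def PerM (M : ℕ) (f : (Fin 2 → ℤ) → ℂ) : Prop := ∀ x n : Fin 2 → ℤ, f (x + (M : ℤ) • n) = f x

lemma PerM.congr {M : ℕ} {f : (Fin 2 → ℤ) → ℂ} (hf : PerM M f) {x y : Fin 2 → ℤ}
    (e : md M x = md M y) : f x = f y := by
  obtain ⟨n, hn⟩ := md_eq_iff e
  rw [hn, hf]

lemma PerM.bdd {M : ℕ} [NeZero M] {f : (Fin 2 → ℤ) → ℂ} (hf : PerM M f) :
    ∃ B : ℝ, ∀ x, ‖f x‖ ≤ B := by
  refine ⟨∑ r : Fin 2 → ZMod M, ‖f (rv r)‖, fun x => ?_⟩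
  have h1 : f x = f (rv (md M x)) := hf.congr (by rw [md_rv])
  rw [h1]
  exact Finset.single_le_sum (f := fun r : Fin 2 → ZMod M => ‖f (rv r)‖)
    (fun _ _ => norm_nonneg _) (Finset.mem_univ _)

lemma Ker.summable_Tf {Q : BQ} {φ : ℂ → (Fin 2 → ℝ) → ℂ} {C : ℂ} (H : Ker Q φ C)
    {M : ℕ} [NeZero M] {f : (Fin 2 → ℤ) → ℂ} (hf : PerM M f) {z : ℂ} (hz : 0 < z.im) :
    Summable fun x : Fin 2 → ℤ => f x * φ z (toR x) := by
  obtain ⟨B, hB⟩ := hf.bdd
  have h1 : Summable fun x : Fin 2 → ℤ => φ z (toR x) := by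
    have := H.sum z hz 0
    simpa using this
  refine Summable.of_norm_bounded (g := fun x => B * ‖φ z (toR x)‖) (h1.norm.mul_left B)
    fun x => ?_
  rw [norm_mul]
  exact mul_le_mul_of_nonneg_right (hB x) (norm_nonneg _)

lemma Ker.Tf_eq {Q : BQ} {φ : ℂ → (Fin 2 → ℝ) → ℂ} {C : ℂ} (H : Ker Q φ C)
    {M : ℕ} [NeZero M] {f : (Fin 2 → ℤ) → ℂ} (hf : PerM M f) {z : ℂ} (hz : 0 < z.im) :
    Tf φ f z = ∑ r : Fin 2 → ZMod M, f (rv r) * Th φ M (rv r) z := by
  unfold Tf
  rw [tsum_dec M (H.summable_Tf hf hz)]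
  refine Finset.sum_congr rfl fun r _ => ?_
  unfold Th
  rw [← tsum_mul_left]
  refine tsum_congr fun m => ?_
  rw [hf]

/-- W2a: transformation formula for a periodic coefficient function -/
theorem Ker.Tf_gamma {Q : BQ} {φ : ℂ → (Fin 2 → ℝ) → ℂ} {C : ℂ} (H : Ker Q φ C)
    (hQ : Q.det ≠ 0) {M : ℕ} (hM : 0 < M) {f : (Fin 2 → ℤ) → ℂ} (hf : PerM M f)
    {a b c : ℤ} {d : ℕ} (had : a * d - b * c = 1)
    (hc : 4 * (M : ℤ) ^ 2 * Q.det ∣ c) {z : ℂ} (hz : 0 < z.im) :
    Tf φ f ((a * z + b) / (c * z + d)) = (c * z + d) * (J(-Q.det | d) : ℂ) *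
      Tf φ (fun x => f ((d : ℤ) • x)) z := by
  have : NeZero M := ⟨hM.ne'⟩
  have hf2 : PerM M (fun x => f ((d : ℤ) • x)) := by
    intro x n
    simp only [smul_add]
    rw [smul_comm (d : ℤ) (M : ℤ) n, hf]
  have hgz : 0 < ((a * z + b) / (c * z + d) : ℂ).im := by
    have hden : (c * z + d : ℂ) ≠ 0 := by
      intro h0
      have h1 : (c : ℝ) * z.im = 0 := by
        have := congrArg Complex.im h0
        simpa using this
      have h2 : c = 0 := by
        rcases mul_eq_zero.1 h1 with h | h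
        · exact_mod_cast h
        · exact absurd h hz.ne'
      rw [h2] at h0 had
      have h3 : (d : ℂ) = 0 := by simpa using h0
      have h4 : d = 0 := by exact_mod_cast h3
      rw [h4] at had
      simp at had
    have had' : (a : ℝ) * d - b * c = 1 := by exact_mod_cast had
    have h5 : ((a * z + b) / (c * z + d) : ℂ).im =
        z.im / normSq (c * z + d) := by
      rw [Complex.div_im]
      simp only [add_re, add_im, mul_re, mul_im, intCast_re, intCast_im, natCast_re, natCast_im,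
        zero_mul, sub_zero, add_zero]
      rw [← sub_div]
      congr 1
      linear_combination z.im * had'
    rw [h5]
    exact div_pos hz (normSq_pos.2 hden)
  rw [H.Tf_eq hf hgz, H.Tf_eq hf2 hz]
  simp_rw [H.Th_gamma hQ hM had hc hz]
  rw [Finset.mul_sum]
  -- the bijection `s ↦ d s`
  have hadM : (a : ZMod M) * (d : ZMod M) = 1 := by
    obtain ⟨c', hc'⟩ := hc
    have h1 := congrArg (Int.cast : ℤ → ZMod M) had
    rw [hc'] at h1
    push_cast at h1
    rw [ZMod.natCast_self] at h1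
    simpa using h1
  have hbij : Function.Bijective (fun s : Fin 2 → ZMod M => (d : ZMod M) • s) := by
    refine Function.bijective_iff_has_inverse.2 ⟨fun s => (a : ZMod M) • s, ?_, ?_⟩
    · intro s
      simp only [smul_smul, hadM, one_smul]
    · intro s
      simp only [smul_smul, mul_comm (d : ZMod M), hadM, one_smul]
  refine (Fintype.sum_bijective _ hbij _ _ fun s => ?_).symm
  have e1 : f (rv ((d : ZMod M) • s)) = f ((d : ℤ) • rv s) := by
    refine hf.congr ?_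
    rw [md_rv, md_smul, md_rv]
    push_cast
    rfl
  have e2 : Th φ M (a • rv ((d : ZMod M) • s)) z = Th φ M (rv s) z := by
    refine Th_congr φ z ?_
    rw [md_smul, md_rv, md_rv, smul_smul, hadM, one_smul]
  rw [e1, e2]
  ring

end

end Vale.Agent.P022.H23
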