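import Vale.Agent.P022.H23.Sp

/-!
# P022, package W: transformation under `Γ₀(M²Δ)` for prime lower right entry
-/

open Complex Finset
open scoped Real
open Vale.Agent.P267.H775 (toR toR_apply chr)

namespace Vale.Agent.P022.H23

noncomputable section

/-- dot product -/
def dt {R : Type*} [CommRing R] (x y : Fin 2 → R) : R := x 0 * y 0 + x 1 * y 1

lemma BQ.q_sub {R : Type*} [CommRing R] (Q : BQ) (x y : Fin 2 → R) :
    Q.q (x - y) = Q.q x + Q.q y - Q.B x y := by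
  simp only [BQ.q, BQ.B, Pi.sub_apply]; ring

lemma BQ.B_smul_right {R : Type*} [CommRing R] (Q : BQ) (t : R) (x y : Fin 2 → R) :
    Q.B x (t • y) = t * Q.B x y := by
  simp only [BQ.B, Pi.smul_apply, smul_eq_mul]; ring

lemma BQ.q_add_d {Q : BQ} (x y : Fin 2 → ℤ) (d : ℤ) :
    Q.q (x + d • y) = Q.q x + d * (Q.B x y + d * Q.q y) := by
  rw [Q.q_add, Q.q_smul, Q.B_smul_right]; ring

lemma ee_eq_of_int {x y : ℝ} (n : ℤ) (h : x = y + n) : ee x = ee y := by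
  rw [h, ee_add_int]

/-- completion of the square -/
lemma key_real (Q : BQ) {M d : ℕ} (hM : 0 < M) (hd : 0 < d) {a b c' : ℤ}
    (had : a * d - b * ((M : ℤ) ^ 2 * Q.det * c') = 1) (h k r : Fin 2 → ℤ) :
    ((b * Q.q (h + (M : ℤ) • r) : ℤ) : ℝ) / d + ((dt k (h + (M : ℤ) • r) : ℤ) : ℝ) / (M * d) +
      ((-c' * Q.qd k : ℤ) : ℝ) / d =
    ((b * Q.q (h + (M : ℤ) • r - ((M : ℤ) * c') • Q.dl k) : ℤ) : ℝ) / d +
      ((a * dt k h : ℤ) : ℝ) / M + ((a * dt k r - a * c' * Q.qd k : ℤ) : ℝ) := by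
  have hM' : (M : ℝ) ≠ 0 := by exact_mod_cast hM.ne'
  have hd' : (d : ℝ) ≠ 0 := by exact_mod_cast hd.ne'
  have had' : (a : ℝ) * d - b * ((M : ℝ) ^ 2 * Q.det * c') = 1 := by exact_mod_cast had
  rw [Q.q_sub, Q.q_smul, Q.B_smul_right, Q.q_dl, Q.B_dl]
  have e1 : dt k (h + (M : ℤ) • r) = dt k h + M * dt k r := by
    simp only [dt, Pi.add_apply, Pi.smul_apply, smul_eq_mul]; ring
  have e2 : k 0 * (h + (M : ℤ) • r) 0 + k 1 * (h + (M : ℤ) • r) 1 = dt k h + M * dt k r := by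
    simp only [dt, Pi.add_apply, Pi.smul_apply, smul_eq_mul]; ring
  rw [e1, e2]
  push_cast
  field_simp
  linear_combination (-((dt k h : ℤ) : ℝ) - M * ((dt k r : ℤ) : ℝ) + M * c' * (Q.qd k : ℝ)) * had'

/-- reduction modulo `d` of a vector -/
def md (d : ℕ) (x : Fin 2 → ℤ) : Fin 2 → ZMod d := fun i => (x i : ZMod d)

lemma md_rv {d : ℕ} [NeZero d] (r : Fin 2 → ZMod d) : md d (rv r) = r := by
  funext i
  simp [md, rv]

lemma md_add (d : ℕ) (x y : Fin 2 → ℤ) : md d (x + y) = md d x + md d y := by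
  funext i
  simp [md]

lemma md_smul (d : ℕ) (t : ℤ) (y : Fin 2 → ℤ) : md d (t • y) = (t : ZMod d) • md d y := by
  funext i
  simp [md]

lemma md_sub (d : ℕ) (x y : Fin 2 → ℤ) : md d (x - y) = md d x - md d y := by
  funext i
  simp [md]

lemma key_sum (Q : BQ) {M d : ℕ} [NeZero d] (hM : 0 < M) {a b c' : ℤ}
    (had : a * d - b * ((M : ℤ) ^ 2 * Q.det * c') = 1) (h k : Fin 2 → ℤ) :
    ∑ r : Fin 2 → ZMod d, ee (((b * Q.q (h + (M : ℤ) • rv r) : ℤ) : ℝ) / d) *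
      ee (((dt k (h + (M : ℤ) • rv r) : ℤ) : ℝ) / (M * d)) * ee (((-c' * Q.qd k : ℤ) : ℝ) / d) =
    GS Q d (b : ZMod d) * ee (((a * dt k h : ℤ) : ℝ) / M) := by
  have hd : 0 < d := Nat.pos_of_ne_zero (NeZero.ne d)
  have h1 : ∀ r : Fin 2 → ZMod d, ee (((b * Q.q (h + (M : ℤ) • rv r) : ℤ) : ℝ) / d) *
      ee (((dt k (h + (M : ℤ) • rv r) : ℤ) : ℝ) / (M * d)) * ee (((-c' * Q.qd k : ℤ) : ℝ) / d) =
      ZMod.stdAddChar ((b : ZMod d) * Q.q (md d h + (M : ZMod d) • r -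
        md d (((M : ℤ) * c') • Q.dl k))) * ee (((a * dt k h : ℤ) : ℝ) / M) := by
    intro r
    rw [← ee_add, ← ee_add, ee_eq_of_int _ (key_real Q hM hd had h k (rv r)), ee_add,
      ← stdAddChar_eq]
    congr 3
    push_cast
    rw [← Q.q_cast]
    congr 2
    funext i
    simp [md, rv]
  simp_rw [h1]
  rw [← Finset.sum_mul]
  congr 1
  unfold GS
  -- the affine bijection
  have hMu : IsUnit (M : ZMod d) := by
    have h2 := congrArg (Int.cast : ℤ → ZMod d) had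
    push_cast at h2
    rw [ZMod.natCast_self, mul_zero, zero_sub] at h2
    refine IsUnit.of_mul_eq_one (-(b * (M * Q.det * c'))) ?_
    rw [← h2]; ring
  obtain ⟨u, hu⟩ := hMu
  have hbij : Function.Bijective (fun r : Fin 2 → ZMod d => md d h + (M : ZMod d) • r -
        md d (((M : ℤ) * c') • Q.dl k)) := by
    refine Function.bijective_iff_has_inverse.2
      ⟨fun s => ((u⁻¹ : (ZMod d)ˣ) : ZMod d) • (s + md d (((M : ℤ) * c') • Q.dl k) - md d h), ?_, ?_⟩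
    · intro r
      simp only [sub_add_cancel, add_sub_cancel_left, ← hu, smul_smul, Units.inv_mul, one_smul]
    · intro s
      simp only [← hu, smul_smul, Units.mul_inv, one_smul]
      abel
  exact Fintype.sum_bijective _ hbij _ _ (fun r => rfl)

lemma dt_smul_right (a : ℤ) (k h : Fin 2 → ℤ) : dt k (a • h) = a * dt k h := by
  simp only [dt, Pi.smul_apply, smul_eq_mul]; ring

/-- transformation of `Θ_h` under `γ = [a, b; c, d]`, `c = M² det c'`, `d > 0`, with a Gauss sum -/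
theorem Ker.Th_trans {Q : BQ} {φ : ℂ → (Fin 2 → ℝ) → ℂ} {C : ℂ} (H : Ker Q φ C)
    (hQ : Q.det ≠ 0) {M d : ℕ} [NeZero d] (hM : 0 < M) {a b c' : ℤ}
    (had : a * d - b * ((M : ℤ) ^ 2 * Q.det * c') = 1) {z : ℂ} (hz : 0 < z.im)
    (h : Fin 2 → ℤ) :
    Th φ M h ((a * z + b) / ((((M : ℤ) ^ 2 * Q.det * c' : ℤ) : ℂ) * z + d)) =
      ((((M : ℤ) ^ 2 * Q.det * c' : ℤ) : ℂ) * z + d) * (GS Q d (b : ZMod d) / d) *
        Th φ M (a • h) z := by
  have hd : 0 < d := Nat.pos_of_ne_zero (NeZero.ne d)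
  have hM' : (0 : ℝ) < M := by exact_mod_cast hM
  have hd' : (0 : ℝ) < d := by exact_mod_cast hd
  have hMc : (M : ℂ) ≠ 0 := by exact_mod_cast hM.ne'
  have hdc : (d : ℂ) ≠ 0 := by exact_mod_cast hd.ne'
  have hDr : (Q.det : ℝ) ≠ 0 := by exact_mod_cast hQ
  have hz0 : z ≠ 0 := by rintro rfl; simp at hz
  set c : ℤ := (M : ℤ) ^ 2 * Q.det * c' with hc
  have hcr : (c : ℝ) = (M : ℝ) ^ 2 * Q.det * c' := by rw [hc]; push_cast; ring
  set w : ℂ := ((d : ℝ) : ℂ) ^ 2 * (-1 / z) + ((-(c * d) : ℝ) : ℂ) with hw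
  have hd2 : 0 < (((d : ℝ) : ℂ) ^ 2 * (-1 / z)).im := by
    rw [show (((d : ℝ) : ℂ) ^ 2 * (-1 / z)) = (((d : ℝ) ^ 2 : ℝ) : ℂ) * (-1 / z) by push_cast; ring,
      Complex.im_ofReal_mul]
    have := im_neg_inv hz
    positivity
  have hwim : 0 < w.im := by
    rw [hw, Complex.add_im, Complex.ofReal_im, add_zero]
    exact hd2
  have hw0 : w ≠ 0 := by intro h0; rw [h0] at hwim; simp at hwim
  set z' : ℂ := -1 / w with hz'
  have hz'im : 0 < z'.im := im_neg_inv hwim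
  have hz'0 : z' ≠ 0 := by intro h0; rw [h0] at hz'im; simp at hz'im
  have hwz' : -1 / z' = w := by rw [hz']; field_simp
  have hcd : (c : ℂ) * z + d ≠ 0 := by
    intro h0
    apply hw0
    have h1 : w = -(d / z) * ((c : ℂ) * z + d) := by
      rw [hw]; push_cast; field_simp; ring
    rw [h1, h0, mul_zero]
  have hwv : w = -(d / z) * ((c : ℂ) * z + d) := by
    rw [hw]; push_cast; field_simp; ring
  have hz'v : z' = z / (d * ((c : ℂ) * z + d)) := by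
    rw [hz', hwv]; field_simp
  have hgz : (a * z + b) / ((c : ℂ) * z + d) = z' + ((b / d : ℝ) : ℂ) := by
    have had' : (a : ℂ) * d - b * c = 1 := by exact_mod_cast had
    have e1 : z' + ((b / d : ℝ) : ℂ) = (z + b * ((c : ℂ) * z + d)) / (d * ((c : ℂ) * z + d)) := by
      rw [hz'v]
      push_cast
      rw [div_add_div _ _ (mul_ne_zero hdc hcd) hdc,
        div_eq_div_iff (mul_ne_zero (mul_ne_zero hdc hcd) hdc) (mul_ne_zero hdc hcd)]
      ring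
    rw [e1, div_eq_div_iff hcd (mul_ne_zero hdc hcd)]
    linear_combination (((c : ℂ) * z + d) * z) * had'
  rw [hgz]
  -- step 1
  have s1 : Th φ M h (z' + ((b / d : ℝ) : ℂ)) = ∑ r : Fin 2 → ZMod d,
      ee (((b * Q.q (h + (M : ℤ) • rv r) : ℤ) : ℝ) / d) *
        ∑' m : Fin 2 → ℤ, φ z' (toR (h + (M : ℤ) • rv r + ((M * d : ℕ) : ℤ) • m)) := by
    unfold Th
    have e1 : ∀ n : Fin 2 → ℤ, φ (z' + ((b / d : ℝ) : ℂ)) (toR (h + (M : ℤ) • n)) =
        ee (((b * Q.q (h + (M : ℤ) • n) : ℤ) : ℝ) / d) * φ z' (toR (h + (M : ℤ) • n)) := by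
      intro n
      rw [H.add z' hz'im, Q.q_toR]
      congr 2
      push_cast
      ring
    simp_rw [e1]
    have hsum : Summable fun n : Fin 2 → ℤ =>
        ee (((b * Q.q (h + (M : ℤ) • n) : ℤ) : ℝ) / d) * φ z' (toR (h + (M : ℤ) • n)) := by
      refine Summable.of_norm ?_
      simp_rw [norm_mul, norm_ee, one_mul]
      exact (H.summable_M hz'im hM h).norm
    rw [tsum_dec d hsum]
    refine Finset.sum_congr rfl fun r _ => ?_
    rw [← tsum_mul_left]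
    refine tsum_congr fun m => ?_
    have e2 : h + (M : ℤ) • (rv r + (d : ℤ) • m) =
        h + (M : ℤ) • rv r + ((M * d : ℕ) : ℤ) • m := by
      rw [smul_add, smul_smul, ← add_assoc]
      push_cast
      rfl
    rw [e2]
    congr 1
    rw [Nat.cast_mul, mul_comm (M : ℤ), mul_smul, Q.q_add_d]
    refine ee_eq_of_int (b * (Q.B (h + (M : ℤ) • rv r) ((M : ℤ) • m) + d * Q.q ((M : ℤ) • m))) ?_
    push_cast
    field_simp
  rw [s1]
  -- step 2
  have s2 : ∀ k : Fin 2 → ℤ, φ w (((M * d : ℕ) : ℝ)⁻¹ • Q.dr k) =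
      ee (((-c' * Q.qd k : ℤ) : ℝ) / d) * φ (-1 / z) ((M : ℝ)⁻¹ • Q.dr k) := by
    intro k
    rw [hw, H.add _ hd2, H.scale _ (im_neg_inv hz) _ hd', smul_smul]
    congr 2
    · rw [Q.q_smul, Q.q_dr hQ, hcr]
      push_cast
      field_simp
    · congr 1
      push_cast
      field_simp
  have hMd : 0 < M * d := Nat.mul_pos hM hd
  have s3 : ∀ r : Fin 2 → ZMod d,
      ∑' m : Fin 2 → ℤ, φ z' (toR (h + (M : ℤ) • rv r + ((M * d : ℕ) : ℤ) • m)) =
      C / (((M * d : ℕ) : ℂ) ^ 2 * z') * ∑' k : Fin 2 → ℤ,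
        ee (((dt k (h + (M : ℤ) • rv r) : ℤ) : ℝ) / (M * d)) *
        (ee (((-c' * Q.qd k : ℤ) : ℝ) / d) * φ (-1 / z) ((M : ℝ)⁻¹ • Q.dr k)) := by
    intro r
    rw [H.pois_M hz'im hMd]
    congr 1
    refine tsum_congr fun k => ?_
    rw [hwz', s2]
    congr 2
    unfold dt
    push_cast
    ring
  simp_rw [s3]
  -- exchange
  have s4 : ∑ r : Fin 2 → ZMod d, ee (((b * Q.q (h + (M : ℤ) • rv r) : ℤ) : ℝ) / d) *
      (C / (((M * d : ℕ) : ℂ) ^ 2 * z') * ∑' k : Fin 2 → ℤ,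
        ee (((dt k (h + (M : ℤ) • rv r) : ℤ) : ℝ) / (M * d)) *
        (ee (((-c' * Q.qd k : ℤ) : ℝ) / d) * φ (-1 / z) ((M : ℝ)⁻¹ • Q.dr k))) =
      C / (((M * d : ℕ) : ℂ) ^ 2 * z') * (GS Q d (b : ZMod d) * ∑' k : Fin 2 → ℤ,
        ee (((dt k (a • h) : ℤ) : ℝ) / M) * φ (-1 / z) ((M : ℝ)⁻¹ • Q.dr k)) := by
    have hsm : Summable fun k : Fin 2 → ℤ => φ (-1 / z) ((M : ℝ)⁻¹ • Q.dr k) :=
      H.summable_dr_M hQ (im_neg_inv hz) hM
    have e1 : ∀ r : Fin 2 → ZMod d, ee (((b * Q.q (h + (M : ℤ) • rv r) : ℤ) : ℝ) / d) *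
      (C / (((M * d : ℕ) : ℂ) ^ 2 * z') * ∑' k : Fin 2 → ℤ,
        ee (((dt k (h + (M : ℤ) • rv r) : ℤ) : ℝ) / (M * d)) *
        (ee (((-c' * Q.qd k : ℤ) : ℝ) / d) * φ (-1 / z) ((M : ℝ)⁻¹ • Q.dr k))) =
        C / (((M * d : ℕ) : ℂ) ^ 2 * z') * ∑' k : Fin 2 → ℤ,
        (ee (((b * Q.q (h + (M : ℤ) • rv r) : ℤ) : ℝ) / d) *
          ee (((dt k (h + (M : ℤ) • rv r) : ℤ) : ℝ) / (M * d)) *
          ee (((-c' * Q.qd k : ℤ) : ℝ) / d)) * φ (-1 / z) ((M : ℝ)⁻¹ • Q.dr k) := by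
      intro r
      rw [mul_left_comm, ← tsum_mul_left]
      congr 1
      refine tsum_congr fun k => ?_
      ring
    simp_rw [e1]
    rw [← Finset.mul_sum]
    congr 1
    rw [← Summable.tsum_finsetSum]
    · rw [← tsum_mul_left]
      refine tsum_congr fun k => ?_
      rw [← Finset.sum_mul, key_sum Q hM had h k, dt_smul_right]
      ring
    · intro r _
      refine Summable.of_norm ?_
      simp_rw [norm_mul, norm_ee, one_mul]
      exact hsm.norm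
  rw [s4]
  have s5 : Th φ M (a • h) z = C / ((M : ℂ) ^ 2 * z) * ∑' k : Fin 2 → ℤ,
        ee (((dt k (a • h) : ℤ) : ℝ) / M) * φ (-1 / z) ((M : ℝ)⁻¹ • Q.dr k) :=
    H.pois_M hz hM (a • h)
  rw [s5, hz'v]
  push_cast
  field_simp

end

end Vale.Agent.P022.H23
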